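import Vale.Agent.P078.Tr.Iter.Cleanup.Support

/-!
# Cleanup: the potential and the invariants of the new state
-/

open scoped ComplexOrder InnerProductSpace

noncomputable section

namespace Vale.Agent.P078.Tr.Iter.Clean

universe u

variable {H : Type u} [NormedAddCommGroup H] [InnerProductSpace ℂ H] [CompleteSpace H]
  {S : Tracial H}

open Tracial

namespace Ctx

variable {P : Par} {y : Op H} {z : St S P.r} {b : Fin P.r → Bool → Op H} (h0 : Ctx P y z b)
include h0

lemma hr : (1000 : ℝ) ≤ P.r := by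
  have hP := h0.hP
  exact by exact_mod_cast hP.r_big

lemma hFle : ∀ χ : S.Chi, S.ev χ (z.F y) ≤ S.ev χ ((widen z b).F y) := by
  have hB := h0.hB
  have hy := h0.hy
  have hc := h0.hc
  have hw := h0.hw
  have hwt := h0.hwt
  have hfzt := h0.hfzt
  exact fun χ => by
    rw [ev_F hw hB hy, ev_F hwt hB hy]
    refine add_le_add (Finset.sum_le_sum fun c _ => ?_) le_rfl
    refine mul_le_mul_of_nonneg_left (mul_le_mul_of_nonneg_left (hfzt c χ) ?_) ?_
    · exact hwt.pot_nonneg hB hy χ
    · exact ev_nonneg (hc.live_mem c) (hc.live_proj c).nonneg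

lemma hFr : ∀ χ : S.Chi, S.ev χ z.act = 1 → S.ev χ (z.F y) ≤ P.r := by
  have hB := h0.hB
  have hP := h0.hP
  have hy := h0.hy
  have hE0 := h0.hE0
  have hz := h0.hz
  have hc := h0.hc
  have hw := h0.hw
  have hτ := h0.hτ
  have hc0 := h0.hc0
  have hlive_sup := h0.hlive_sup
  have hr := h0.hr
  intro χ _
  rw [ev_F hw hB hy]
  have h1 : ∑ c, S.ev χ (z.live c) * (S.ev χ (z.side y c).pot * S.ev χ (z.side y c).fz) ≤
      ∑ _c : Fin P.r, (1 / 200 : ℝ) := by
    refine Finset.sum_le_sum fun c _ => ?_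
    rcases ev_proj (χ := χ) (hc.live_mem c) (hc.live_proj c) with h | h
    · rw [h, zero_mul]; norm_num
    · rw [h, one_mul]
      have hp := hw.pot_le hB hy (c := c) χ (by norm_num : (0 : ℝ) < 1 / 499)
        (by rw [one_div, inv_inv]; exact (hz.live_a c χ h).1)
      have hf := hw.fz_le hB hy (half_pos hτ) (fun σ => hz.K_lo c σ) hE0 χ (hlive_sup c χ h)
        (fun σ => hc.live_B c σ χ h)
      calc _ ≤ S.ev χ (z.side y c).pot * (1 + 2 * (1 / 100)) :=
            mul_le_mul_of_nonneg_left hf (hw.pot_nonneg hB hy χ)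
        _ ≤ (1 / 499 + 204 * (1 / 499 * (1 / 499))) * (1 + 2 * (1 / 100)) :=
            mul_le_mul_of_nonneg_right hp (by norm_num)
        _ ≤ _ := by norm_num
  rw [Finset.sum_const, Finset.card_univ, Fintype.card_fin, nsmul_eq_mul] at h1
  have h2 := hc.loss_le χ
  have h3 : 0 ≤ ∑ c, S.ev χ (z.sup c) :=
    Finset.sum_nonneg fun c _ => ev_nonneg (hw.sup_mem c) (hw.sup_proj c).nonneg
  have h4 := mul_nonneg (by linarith : (0 : ℝ) ≤ 3 * P.c0) h3
  nlinarith [hP.r_c0]

lemma hF' : ∀ χ : S.Chi, newAct z (widen z b) y χ = 1 → S.ev χ ((widen z b).F y) ≤ S.ev χ ((tidy z y b).F y) := by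
  have hB := h0.hB
  have hP := h0.hP
  have hy := h0.hy
  have hE0 := h0.hE0
  have hz := h0.hz
  have hc := h0.hc
  have hτ := h0.hτ
  have hc0 := h0.hc0
  have hwt := h0.hwt
  have hKtlo := h0.hKtlo
  have hfzm := h0.hfzm
  have hfzs := h0.hfzs
  have bk := h0.bk
  have keep1 := h0.keep1
  have act1 := h0.act1
  have hw' := h0.hw'
  have hfz' := h0.hfz'
  have hlive_sup := h0.hlive_sup
  have hr := h0.hr
  intro χ h2
  have hl' : S.ev χ (tidy z y b).loss = S.ev χ z.loss +
      ∑ c, 3 * P.c0 * (S.ev χ (z.live c) * kill z (widen z b) y c χ) := by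
    show S.ev χ (z.loss + (3 * P.c0) • fnA S (killed z (widen z b) y)) = _
    rw [ev_add hc.loss_mem (S.rsmul_mem_A _ (fnA_mem _)), ev_smul _ (fnA_mem _), ev_fnA, killed,
      ContinuousMap.sum_apply, Finset.mul_sum]
    simp [h2]
  rw [ev_F hwt hB hy, ev_F hw' hB hy, hl', ← add_assoc, add_right_comm, ← Finset.sum_add_distrib]
  refine add_le_add (Finset.sum_le_sum fun c _ => ?_) le_rfl
  show S.ev χ (z.live c) * (S.ev χ ((widen z b).side y c).pot * S.ev χ ((widen z b).side y c).fz) ≤
    S.ev χ (fnA S (newLive z (widen z b) y c)) * (S.ev χ ((widen z b).side y c).pot * S.ev χ ((tidy z y b).side y c).fz) +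
      3 * P.c0 * (S.ev χ (z.live c) * kill z (widen z b) y c χ)
  have hnlv : newLive z (widen z b) y c χ = S.ev χ (z.live c) * (1 - kill z (widen z b) y c χ) := by
    simp [newLive, h2]
  rw [ev_fnA, hnlv]
  rcases ev_proj (χ := χ) (hc.live_mem c) (hc.live_proj c) with hl | hl
  · simp [hl]
  rcases bk c χ with hk | hk
  · have := hfz' c χ (by rw [hnlv, hl, hk]; ring)
    rw [hl, hk]
    nlinarith [hwt.pot_nonneg hB hy (c := c) χ]
  · rw [hl, hk]
    simp only [sub_self, mul_zero, zero_mul, zero_add, one_mul, mul_one]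
    have ha := hz.live_a c χ hl
    simp only [kill, ContinuousMap.sub_apply, ContinuousMap.one_apply, ContinuousMap.mul_apply,
      evMap_apply, sub_eq_self, mul_eq_zero] at hk
    rcases hk with hk | hk
    · have hf : S.ev χ ((widen z b).side y c).fz ≤ P.c0 := ev_cut_eq_zero (hfzm c) (hfzs c) hk
      have hp := hwt.pot_le hB hy (c := c) χ (by norm_num : (0 : ℝ) < 1 / 499)
        (by rw [one_div, inv_inv]; exact ha.1)
      calc _ ≤ S.ev χ ((widen z b).side y c).pot * P.c0 :=
            mul_le_mul_of_nonneg_left hf (hwt.pot_nonneg hB hy χ)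
        _ ≤ 3 * P.c0 := mul_le_mul_of_nonneg_right (hp.trans (by norm_num)) hc0.le
    · have hge : 1 / P.c0 ≤ S.ev χ (z.a c) :=
        ev_cut_eq_one (hc.a_mem c) (hc.a_sa c) (sub_eq_zero.1 hk).symm
      have hp := hwt.pot_le hB hy (c := c) χ hc0 (by rw [← one_div]; exact hge)
      have hf := hwt.fz_le hB hy hτ (hKtlo c) hE0 χ (hlive_sup c χ hl)
        (fun σ => (keep1 χ (act1 χ h2).1).2.2 c σ hl)
      calc _ ≤ S.ev χ ((widen z b).side y c).pot * (1 + 2 * (1 / 100)) :=
            mul_le_mul_of_nonneg_left hf (hwt.pot_nonneg hB hy χ)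
        _ ≤ (P.c0 + 204 * (P.c0 * P.c0)) * (1 + 2 * (1 / 100)) :=
            mul_le_mul_of_nonneg_right hp (by norm_num)
        _ ≤ 3 * P.c0 := by nlinarith [hP.c0_le]

lemma live_act' : ∀ c, (tidy z y b).act * (tidy z y b).live c = (tidy z y b).live c := by
  have bnl := h0.bnl
  have live1 := h0.live1
  have hnl := h0.hnl
  have hlp := h0.hlp
  exact fun c => by
    refine (ext_iff_ev (mul_mem (fnA_mem _) (hnl c)) (hnl c) (mul_isSelfAdjoint (fnA_mem _)
      (hnl c) (fnA_isSelfAdjoint _) (hlp c).isSelfAdjoint) (hlp c).isSelfAdjoint).2 fun χ => ?_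
    show S.ev χ (fnA S (newAct z (widen z b) y) * fnA S (newLive z (widen z b) y c)) =
      S.ev χ (fnA S (newLive z (widen z b) y c))
    rw [ev_mul (fnA_mem _) (fnA_mem _) (fnA_isSelfAdjoint _), ev_fnA, ev_fnA]
    rcases bnl c χ with h | h
    · rw [h, mul_zero]
    · rw [(live1 c χ h).1, h, mul_one]

lemma fro_act' : ∀ c, (tidy z y b).act * (tidy z y b).fro c = 0 := by
  have bfr := h0.bfr
  have b2 := h0.b2
  have hAO := h0.hAO
  have keep1 := h0.keep1
  have act1 := h0.act1
  have freeze1 := h0.freeze1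
  have hnf := h0.hnf
  have evnf := h0.evnf
  have hfrp := h0.hfrp
  exact fun c => by
    refine (ext_iff_ev (mul_mem (fnA_mem _) (hnf c)) (zero_mem _) (mul_isSelfAdjoint (fnA_mem _)
      (hnf c) (fnA_isSelfAdjoint _) (hfrp c).isSelfAdjoint) (IsSelfAdjoint.zero _)).2 fun χ => ?_
    rw [ev_mul (fnA_mem _) (hnf c) (fnA_isSelfAdjoint _), ev_zero, evnf]
    show S.ev χ (fnA S (newAct z (widen z b) y)) * _ = 0
    rw [ev_fnA]
    rcases b2 χ with h | h
    · rw [h, zero_mul]
    · rw [hAO c χ (keep1 χ (act1 χ h).1).1, (bfr c χ).resolve_right fun e =>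
        zero_ne_one ((act1 χ h).2 c ▸ (freeze1 c χ e).2.1), add_zero, mul_zero]

lemma fro_orth' : ∀ c i, c ≠ i → (tidy z y b).fro c * (tidy z y b).fro i = 0 := by
  have hc := h0.hc
  have bfr := h0.bfr
  have freeze1 := h0.freeze1
  have hnf := h0.hnf
  have evnf := h0.evnf
  have hFoFr := h0.hFoFr
  have hfrp := h0.hfrp
  exact fun c i hci => by
    refine (ext_iff_ev (mul_mem (hnf c) (hnf i)) (zero_mem _) (mul_isSelfAdjoint (hnf c) (hnf i)
      (hfrp c).isSelfAdjoint (hfrp i).isSelfAdjoint) (IsSelfAdjoint.zero _)).2 fun χ => ?_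
    rw [ev_mul (hnf c) (hnf i) (hfrp c).isSelfAdjoint, ev_zero, evnf, evnf]
    rcases bfr c χ with h | h <;> rcases bfr i χ with h' | h'
    · rw [h, h', add_zero, add_zero, ← ev_mul (hc.fro_mem c) (hc.fro_mem i)
        (hc.fro_proj c).isSelfAdjoint, hc.fro_orth c i hci, ev_zero]
    · rw [hFoFr c i χ h', h, add_zero, zero_mul]
    · rw [hFoFr i c χ h, h', add_zero, mul_zero]
    · exfalso
      rcases lt_or_gt_of_ne hci with hlt | hlt
      · exact zero_ne_one (((freeze1 i χ h').2.2 c hlt).symm.trans (freeze1 c χ h).2.1)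
      · exact zero_ne_one (((freeze1 c χ h).2.2 i hlt).symm.trans (freeze1 i χ h').2.1)

lemma fro_a' : ∀ c (χ : S.Chi), S.ev χ ((tidy z y b).fro c) = 1 → S.ev χ ((tidy z y b).a c) ≤ 500 := by
  have hc := h0.hc
  have bfr := h0.bfr
  have freeze1 := h0.freeze1
  have ready1 := h0.ready1
  have evnf := h0.evnf
  exact fun c χ h => by
    rw [evnf] at h
    rcases bfr c χ with h' | h'
    · rw [h', add_zero] at h
      exact hc.fro_a c χ h
    · exact (ready1 c χ (freeze1 c χ h').2.1).2

lemma live_B' : ∀ c σ (χ : S.Chi), S.ev χ ((tidy z y b).live c) = 1 → S.ev χ (S.E ((tidy z y b).B c σ)) ≤ 1 / 100 := by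
  have hB := h0.hB
  have hwt := h0.hwt
  have hEBm := h0.hEBm
  have keep1 := h0.keep1
  have act1 := h0.act1
  have live1 := h0.live1
  have hns := h0.hns
  have hnlf := h0.hnlf
  have hsp := h0.hsp
  have evns := h0.evns
  exact fun c σ χ h => by
    replace h : newLive z (widen z b) y c χ = 1 := by rw [← h]; exact (ev_fnA _ χ).symm
    obtain ⟨h2, hl, -⟩ := live1 c χ h
    have hb := (keep1 χ (act1 χ h2).1).2.2 c σ hl
    show S.ev χ (S.E ((tidy z y b).sup c * (widen z b).B c σ * (tidy z y b).sup c)) ≤ _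
    have hBM := hwt.B_mem c σ
    rw [mul_assoc, (hB.E_mul _ (hns c) _ (mul_mem hBM (S.le _ (hns c)))).1,
      (hB.E_mul _ (hns c) _ hBM).2, ev_mul (hns c) (mul_mem (hns c) (hEBm c σ))
        (hsp c).isSelfAdjoint, ev_mul (hns c) (hEBm c σ) (hsp c).isSelfAdjoint, evns, h,
      (hnlf c c χ h).1, (hnlf c c χ h).2]
    simpa using hb

lemma loss_nonneg' : ∀ χ : S.Chi, 0 ≤ S.ev χ (tidy z y b).loss := by
  have hc := h0.hc
  have hc0 := h0.hc0
  have bL := h0.bL
  have b2 := h0.b2
  have bk := h0.bk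
  have hr := h0.hr
  exact fun χ => by
    show 0 ≤ S.ev χ (z.loss + (3 * P.c0) • fnA S (killed z (widen z b) y))
    rw [ev_add hc.loss_mem (S.rsmul_mem_A _ (fnA_mem _)), ev_smul _ (fnA_mem _), ev_fnA, killed,
      ContinuousMap.sum_apply]
    refine add_nonneg (hc.loss_nonneg χ) (mul_nonneg (by linarith) (Finset.sum_nonneg fun c _ => ?_))
    rcases (b2.mul ((bL c).mul (bk c))) χ with e | e <;> rw [e]
    exact zero_le_one

lemma loss_le' : ∀ χ : S.Chi, S.ev χ (tidy z y b).loss + 3 * P.c0 * ∑ c, S.ev χ ((tidy z y b).sup c) ≤ 3 * P.c0 * P.r := by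
  have hc := h0.hc
  have hc0 := h0.hc0
  have bfr := h0.bfr
  have b2 := h0.b2
  have act1 := h0.act1
  have freeze1 := h0.freeze1
  have evns := h0.evns
  have hsle := h0.hsle
  have hr := h0.hr
  exact fun χ => by
    show S.ev χ (z.loss + (3 * P.c0) • fnA S (killed z (widen z b) y)) + _ ≤ _
    rw [ev_add hc.loss_mem (S.rsmul_mem_A _ (fnA_mem _)), ev_smul _ (fnA_mem _), ev_fnA, killed,
      ContinuousMap.sum_apply, add_assoc, ← mul_add, ← Finset.sum_add_distrib]
    refine le_trans (add_le_add_right (mul_le_mul_of_nonneg_left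
      (Finset.sum_le_sum fun c _ => ?_) (by linarith)) _) (hc.loss_le χ)
    rw [evns, St.sup, ev_add (hc.live_mem c) (hc.fro_mem c), ContinuousMap.mul_apply,
      ContinuousMap.mul_apply, evMap_apply]
    rcases b2 χ with h2 | h2
    · rw [h2, zero_mul, zero_add]
      have := hsle c χ
      rwa [evns, St.sup, ev_add (hc.live_mem c) (hc.fro_mem c)] at this
    · have hnlv : newLive z (widen z b) y c χ = S.ev χ (z.live c) * (1 - kill z (widen z b) y c χ) := by
        simp [newLive, h2]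
      rw [hnlv, h2, (bfr c χ).resolve_right fun e =>
        zero_ne_one ((act1 χ h2).2 c ▸ (freeze1 c χ e).2.1)]
      linarith

lemma rest' : S.tr (1 - ∑ c, (tidy z y b).fro c) ≤ S.tr (tidy z y b).act + (tidy z y b).mB + (tidy z y b).mF := by
  have hc := h0.hc
  have hc0 := h0.hc0
  have hr := h0.hr
  show S.tr (1 - ∑ c, (z.fro c + fnA S (freeze z (widen z b) y c))) ≤ S.tr (fnA S (newAct z (widen z b) y)) +
    (z.mB + S.tr (fnA S (dropB z (widen z b) y))) + (z.mF + S.tr (fnA S (dropF z (widen z b) y)))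
  have hsum : z.act = fnA S (dropF z (widen z b) y) + fnA S (dropB z (widen z b) y) +
      (∑ c, fnA S (freeze z (widen z b) y c) + fnA S (newAct z (widen z b) y)) := by
    refine (ext_iff_ev hc.act_mem (add_mem (add_mem (fnA_mem _) (fnA_mem _))
      (add_mem (sum_mem fun c _ => fnA_mem _) (fnA_mem _))) hc.act_proj.isSelfAdjoint
      (((fnA_isSelfAdjoint _).add (fnA_isSelfAdjoint _)).add
        ((isSelfAdjoint_sum _ fun c _ => fnA_isSelfAdjoint _).add (fnA_isSelfAdjoint _)))).2
      fun χ => ?_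
    rw [ev_add (add_mem (fnA_mem _) (fnA_mem _)) (add_mem (sum_mem fun c _ => fnA_mem _)
      (fnA_mem _)), ev_add (fnA_mem _) (fnA_mem _), ev_add (sum_mem fun c _ => fnA_mem _)
      (fnA_mem _), ev_sum _ _ fun c _ => fnA_mem _]
    simp only [ev_fnA, dropF, dropB, freeze, newAct, ContinuousMap.mul_apply,
      ContinuousMap.sub_apply, ContinuousMap.one_apply, ContinuousMap.prod_apply, evMap_apply]
    rw [← Finset.mul_sum, Finset.prod_one_sub_ordered]
    simp only [keep, ContinuousMap.mul_apply, evMap_apply]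
    ring
  have h1 := hc.rest
  rw [hsum, S.tr_add, S.tr_add, S.tr_add, S.tr_sum] at h1
  rw [Finset.sum_add_distrib, ← sub_sub, S.tr_sub, S.tr_sum]
  linarith

lemma budget' : (1 / 100) * (tidy z y b).mB + ∑ c, ∑ σ, S.tr ((tidy z y b).B c σ) ≤ (tidy z y b).beta := by
  have hB := h0.hB
  have hc := h0.hc
  have hw := h0.hw
  have hc0 := h0.hc0
  have hwt := h0.hwt
  have hEBm := h0.hEBm
  have hEB0 := h0.hEB0
  have hEBs := h0.hEBs
  have bA := h0.bA
  have bF := h0.bF
  have bB := h0.bB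
  have bfr := h0.bfr
  have bnl := h0.bnl
  have hLA := h0.hLA
  have hAO := h0.hAO
  have act1 := h0.act1
  have freeze1 := h0.freeze1
  have live1 := h0.live1
  have hns := h0.hns
  have hsp := h0.hsp
  have evns := h0.evns
  have hsle := h0.hsle
  have hlive_sup := h0.hlive_sup
  have hr := h0.hr
  show (1 / 100) * (z.mB + S.tr (fnA S (dropB z (widen z b) y))) +
      ∑ c, ∑ σ, S.tr ((tidy z y b).sup c * (widen z b).B c σ * (tidy z y b).sup c) ≤
    z.beta + ∑ c, ∑ σ, S.tr (b c σ)
  have htr : ∀ (e : Op H), e ∈ S.A → IsStarProjection e → ∀ c σ,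
      S.tr (e * (widen z b).B c σ * e) = S.tr (e * S.E ((widen z b).B c σ)) := fun e he hp c σ => by
    rw [S.tr_comm (mul_mem (S.le _ he) (hwt.B_mem c σ)) (S.le _ he), ← mul_assoc,
      hp.isIdempotentElem.eq, tr_mul_E hB (hwt.B_mem c σ) he]
  have hkey : (1 / 100 : ℝ) • fnA S (dropB z (widen z b) y) ≤
      ∑ c, ∑ σ, (z.sup c - (tidy z y b).sup c) * S.E ((widen z b).B c σ) := by
    have hd : ∀ c σ, (z.sup c - (tidy z y b).sup c) * S.E ((widen z b).B c σ) ∈ S.A := fun c σ =>
      mul_mem (sub_mem (hw.sup_mem c) (hns c)) (hEBm c σ)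
    refine (le_iff (S.rsmul_mem_A _ (fnA_mem _)) (sum_mem fun c _ => sum_mem fun σ _ => hd c σ)
      ((IsSelfAdjoint.all _).smul (fnA_isSelfAdjoint _)) (isSelfAdjoint_sum _ fun c _ =>
        isSelfAdjoint_sum _ fun σ _ => mul_isSelfAdjoint (sub_mem (hw.sup_mem c) (hns c))
          (hEBm c σ) ((hw.sup_proj c).isSelfAdjoint.sub (hsp c).isSelfAdjoint)
          (hEBs c σ))).2 fun χ => ?_
    rw [ev_smul _ (fnA_mem _), ev_fnA, ev_sum _ _ fun c _ => sum_mem fun σ _ => hd c σ,
      Finset.sum_congr rfl fun c _ => ev_sum _ _ fun σ _ => hd c σ]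
    have hnn : ∀ c σ, 0 ≤ S.ev χ ((z.sup c - (tidy z y b).sup c) * S.E ((widen z b).B c σ)) := fun c σ => by
      rw [ev_mul (sub_mem (hw.sup_mem c) (hns c)) (hEBm c σ)
        ((hw.sup_proj c).isSelfAdjoint.sub (hsp c).isSelfAdjoint),
        ev_sub (hw.sup_mem c) (hns c)]
      exact mul_nonneg (by linarith [hsle c χ]) (ev_nonneg (hEBm c σ) (hEB0 c σ))
    rcases ((bA.mul bF).mul bB.one_sub) χ with hd0 | hd1
    · rw [show dropB z (widen z b) y χ = 0 from hd0, mul_zero]
      exact Finset.sum_nonneg fun c _ => Finset.sum_nonneg fun σ _ => hnn c σ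
    · rw [show dropB z (widen z b) y χ = 1 from hd1, mul_one]
      simp only [ContinuousMap.mul_apply, ContinuousMap.sub_apply,
        ContinuousMap.one_apply] at hd1
      have hbad : smallB z (widen z b) χ = 0 := (bB χ).resolve_right fun e => by simp [e] at hd1
      have hk0 : keep z (widen z b) y χ = 0 := by simp [keep, hbad]
      simp only [smallB, ContinuousMap.prod_apply] at hbad
      obtain ⟨⟨c, σ⟩, -, hp⟩ := Finset.prod_eq_zero_iff.1 hbad
      simp only [ContinuousMap.sub_apply, ContinuousMap.one_apply, ContinuousMap.mul_apply,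
        evMap_apply, sub_eq_zero] at hp
      have hl : S.ev χ (z.live c) = 1 :=
        (ev_proj (hc.live_mem c) (hc.live_proj c)).resolve_left fun e => by simp [e] at hp
      rw [hl, one_mul] at hp
      refine le_trans ?_ ((Finset.single_le_sum (fun i _ => hnn c i) (Finset.mem_univ σ)).trans
        (Finset.single_le_sum (fun i _ => Finset.sum_nonneg fun j _ => hnn i j)
          (Finset.mem_univ c)))
      have hs0 : S.ev χ ((tidy z y b).sup c) = 0 := by
        rw [evns, hAO c χ (hLA c χ hl),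
          (bnl c χ).resolve_right fun e => zero_ne_one
            (hk0.symm.trans (act1 χ (live1 c χ e).1).1),
          (bfr c χ).resolve_right fun e => zero_ne_one (hk0.symm.trans (freeze1 c χ e).1)]
        ring
      rw [ev_mul (sub_mem (hw.sup_mem c) (hns c)) (hEBm c σ)
        ((hw.sup_proj c).isSelfAdjoint.sub (hsp c).isSelfAdjoint),
        ev_sub (hw.sup_mem c) (hns c), hlive_sup c χ hl, hs0, sub_zero, one_mul]
      exact ev_cut_eq_one (hEBm c σ) (hEBs c σ) hp.symm
  have h1 := S.tr_mono hkey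
  simp only [S.tr_smul, S.tr_sum, sub_mul, S.tr_sub] at h1
  simp only [htr _ (hns _) (hsp _)]
  have h2 : ∀ c σ, S.tr (z.sup c * S.E ((widen z b).B c σ)) = S.tr (z.B c σ) + S.tr (b c σ) := fun c σ => by
    rw [← htr _ (hw.sup_mem c) (hw.sup_proj c) c σ]
    show S.tr ((widen z b).sup c * (widen z b).B c σ * (widen z b).sup c) = _
    rw [hwt.B_sup c σ, ← S.tr_add]
    rfl
  simp only [h2, Finset.sum_sub_distrib, Finset.sum_add_distrib] at h1
  have := hc.budget
  linarith

lemma hcore : (tidy z y b).Core P := by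
  have hc := h0.hc
  have bA := h0.bA
  have bF := h0.bF
  have bB := h0.bB
  have b2 := h0.b2
  have hnl := h0.hnl
  have hnf := h0.hnf
  have hfrp := h0.hfrp
  have hlp := h0.hlp
  have hw' := h0.hw'
  have live_act' := h0.live_act'
  have fro_act' := h0.fro_act'
  have fro_orth' := h0.fro_orth'
  have fro_a' := h0.fro_a'
  have live_B' := h0.live_B'
  have loss_nonneg' := h0.loss_nonneg'
  have loss_le' := h0.loss_le'
  have rest' := h0.rest'
  have budget' := h0.budget'
  exact
    { act_mem := fnA_mem _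
      act_proj := isStarProjection_fnA b2
      live_mem := hnl, live_proj := hlp, fro_mem := hnf, fro_proj := hfrp
      live_act := live_act', fro_act := fro_act', fro_orth := fro_orth'
      a_mem := hc.a_mem, a_sa := hc.a_sa, a_ge := hc.a_ge
      fro_a := fro_a', B_mem := hw'.B_mem, B_nonneg := hw'.B_nonneg, B_sup := hw'.B_sup
      live_B := live_B', loss_mem := hw'.loss_mem, loss_sa := hw'.loss_sa
      loss_nonneg := loss_nonneg', loss_le := loss_le'
      mB_nonneg := add_nonneg hc.mB_nonneg (S.tr_nonneg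
        (isStarProjection_fnA ((bA.mul bF).mul bB.one_sub)).nonneg)
      mF_nonneg := add_nonneg hc.mF_nonneg (S.tr_nonneg
        (isStarProjection_fnA (bA.mul bF.one_sub)).nonneg)
      rest := rest', budget := budget' }

end Ctx

end Vale.Agent.P078.Tr.Iter.Clean
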