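import Vale.Agent.P078.Tr.Iter.Cleanup.Core

/-!
# Cleanup: strictness and the objective
-/

open scoped ComplexOrder InnerProductSpace

noncomputable section

namespace Vale.Agent.P078.Tr.Iter.Clean

universe u

variable {H : Type u} [NormedAddCommGroup H] [InnerProductSpace ℂ H] [CompleteSpace H]
  {S : Tracial H}

open Tracial

namespace Ctx

variable {P : Par} {y : Op H} {z : St S P.r} {b : Fin P.r → Bool → Op H} (h0 : Ctx P y z b)
include h0

lemma live_a' : ∀ c (χ : S.Chi), S.ev χ ((tidy z y b).live c) = 1 → 500 ≤ S.ev χ ((tidy z y b).a c) ∧ S.ev χ ((tidy z y b).a c) ≤ 1 / P.c0 := by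
  have hc := h0.hc
  have act1 := h0.act1
  have live1 := h0.live1
  intro c χ h
  replace h : newLive z (widen z b) y c χ = 1 := by rw [← h]; exact (ev_fnA _ χ).symm
  obtain ⟨h2, hl, hk⟩ := live1 c χ h
  have hq := (act1 χ h2).2 c
  simp only [ready, ContinuousMap.mul_apply, ContinuousMap.sub_apply, ContinuousMap.one_apply,
    evMap_apply, hl, one_mul, sub_eq_zero] at hq
  simp only [kill, ContinuousMap.mul_apply, ContinuousMap.sub_apply, ContinuousMap.one_apply,
    evMap_apply, sub_eq_zero] at hk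
  refine ⟨ev_cut_eq_one (hc.a_mem c) (hc.a_sa c) hq.symm,
    ev_cut_eq_zero (hc.a_mem c) (hc.a_sa c) ?_⟩
  refine (ev_proj (S.cut_mem_A (hc.a_mem c) _) (isStarProjection_cut _ _)).resolve_right fun e => ?_
  rw [e, sub_self, mul_zero] at hk
  exact one_ne_zero hk

lemma live_fz' : ∀ c (χ : S.Chi), S.ev χ ((tidy z y b).live c) = 1 → P.c0 ≤ S.ev χ ((tidy z y b).side y c).fz := by
  have hfzm := h0.hfzm
  have hfzs := h0.hfzs
  have live1 := h0.live1
  have hfz' := h0.hfz'
  intro c χ h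
  replace h : newLive z (widen z b) y c χ = 1 := by rw [← h]; exact (ev_fnA _ χ).symm
  obtain ⟨-, -, hk⟩ := live1 c χ h
  simp only [kill, ContinuousMap.mul_apply, ContinuousMap.sub_apply, ContinuousMap.one_apply,
    evMap_apply, sub_eq_zero] at hk
  refine le_trans (ev_cut_eq_one (hfzm c) (hfzs c) ?_) (hfz' c χ h)
  refine (ev_proj (S.cut_mem_A (hfzm c) _) (isStarProjection_cut _ _)).resolve_left fun e => ?_
  rw [e, zero_mul] at hk
  exact one_ne_zero hk

lemma act_F' : ∀ χ : S.Chi, S.ev χ (tidy z y b).act = 1 → 3 / 5 ≤ S.ev χ ((tidy z y b).F y) := by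
  have keep1 := h0.keep1
  have act1 := h0.act1
  have hF' := h0.hF'
  intro χ h
  replace h : newAct z (widen z b) y χ = 1 := by rw [← h]; exact (ev_fnA _ χ).symm
  exact (keep1 χ (act1 χ h).1).2.1.trans (hF' χ h)

lemma hF'm : (tidy z y b).F y ∈ S.A := by
  have hB := h0.hB
  have hy := h0.hy
  have hw' := h0.hw'
  exact F_mem hw' hB hy

lemma hF's : IsSelfAdjoint ((tidy z y b).F y) := by
  have hB := h0.hB
  have hy := h0.hy
  have hτ := h0.hτ
  have hw' := h0.hw'
  have hK'lo := h0.hK'lo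
  exact F_sa hw' hB hy hτ hK'lo

lemma hFm : z.F y ∈ S.A := by
  have hB := h0.hB
  have hy := h0.hy
  have hw := h0.hw
  exact F_mem hw hB hy

lemma hFs : IsSelfAdjoint (z.F y) := by
  have hB := h0.hB
  have hy := h0.hy
  have hz := h0.hz
  have hw := h0.hw
  have hτ := h0.hτ
  exact F_sa hw hB hy (half_pos hτ) hz.K_lo

lemma hphim : ∀ x : Op H, phi S P.kap x ∈ S.A := by
  exact fun x => fnA_mem _

lemma hphis : ∀ x : Op H, IsSelfAdjoint (phi S P.kap x) := by
  exact fun x => fnA_isSelfAdjoint _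

lemma hphi : ∀ (x : Op H) (χ : S.Chi),
      S.ev χ (phi S P.kap x) = Real.exp (-P.kap * (S.ev χ x - 3 / 5)) := by
  exact fun x χ => ev_appA _ x χ

lemma o1 : S.tr (fnA S (dropF z (widen z b) y)) + S.tr ((tidy z y b).act * phi S P.kap ((tidy z y b).F y)) ≤
      S.tr (z.act * phi S P.kap (z.F y)) := by
  have hP := h0.hP
  have hc := h0.hc
  have hc0 := h0.hc0
  have hFt := h0.hFt
  have hFts := h0.hFts
  have bF := h0.bF
  have b2 := h0.b2
  have keep1 := h0.keep1
  have act1 := h0.act1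
  have hr := h0.hr
  have hFle := h0.hFle
  have hF' := h0.hF'
  have hcore := h0.hcore
  have hphim := h0.hphim
  have hphis := h0.hphis
  have hphi := h0.hphi
  rw [← S.tr_add]
  refine tr_le_of_ev (add_mem (fnA_mem _) (mul_mem hcore.act_mem (hphim _)))
    (mul_mem hc.act_mem (hphim _)) ((fnA_isSelfAdjoint _).add (mul_isSelfAdjoint hcore.act_mem
      (hphim _) (fnA_isSelfAdjoint _) (hphis _))) (mul_isSelfAdjoint hc.act_mem (hphim _)
      hc.act_proj.isSelfAdjoint (hphis _)) fun χ => ?_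
  rw [ev_add (fnA_mem _) (mul_mem hcore.act_mem (hphim _)),
    ev_mul hcore.act_mem (hphim _) (fnA_isSelfAdjoint _),
    ev_mul hc.act_mem (hphim _) hc.act_proj.isSelfAdjoint, hphi, hphi, ev_fnA]
  show dropF z (widen z b) y χ + S.ev χ (fnA S (newAct z (widen z b) y)) * _ ≤ _
  rw [ev_fnA]
  rcases b2 χ with h2 | h2
  · rw [h2, zero_mul, add_zero]
    simp only [dropF, ContinuousMap.mul_apply, ContinuousMap.sub_apply, ContinuousMap.one_apply,
      evMap_apply]
    rcases bF χ with hF | hF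
    · rw [hF, sub_zero, mul_one]
      refine le_mul_of_one_le_right (ev_nonneg hc.act_mem hc.act_proj.nonneg)
        (Real.one_le_exp ?_)
      have : S.ev χ ((widen z b).F y) ≤ 3 / 5 := ev_cut_eq_zero hFt hFts hF
      nlinarith [hFle χ, hP.kap_pos]
    · rw [hF, sub_self, mul_zero]
      exact mul_nonneg (ev_nonneg hc.act_mem hc.act_proj.nonneg) (Real.exp_pos _).le
  · have hk := (act1 χ h2).1
    have hA := (keep1 χ hk).1
    have hF1 : bigF (widen z b) y χ = 1 := (bF χ).resolve_left fun e => by simp [keep, e] at hk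
    have hd : dropF z (widen z b) y χ = 0 := by simp [dropF, hF1]
    rw [hd, h2, hA, zero_add, one_mul, one_mul]
    exact Real.exp_le_exp.2 (by nlinarith [hP.kap_pos, hFle χ, hF' χ h2])

lemma o2 : (tidy z y b).gam P y + (tidy z y b).beta / P.tau ^ 2 ≤ z.gam P y + z.beta / P.tau ^ 2 := by
  have hbtr := h0.hbtr
  have hc0 := h0.hc0
  have hKt := h0.hKt
  have hK' := h0.hK'
  have hcomp := h0.hcomp
  have hr := h0.hr
  have h : ∀ c σ, S.tr ((tidy z y b).sup c * (tidy z y b).G y c σ) + S.tr (b c σ) / P.tau ^ 2 ≤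
      S.tr (z.sup c * z.G y c σ) := fun c σ => by
    refine le_trans (add_le_add ?_ le_rfl) (hbtr c σ)
    show S.tr ((tidy z y b).sup c * Ring.inverse ((tidy z y b).K y c σ)) ≤ _
    rw [hK', ← hKt]
    exact (hcomp c σ).2.2
  have := Finset.sum_le_sum (s := Finset.univ) fun c _ =>
    Finset.sum_le_sum (s := (Finset.univ : Finset Bool)) fun σ _ => h c σ
  simp only [Finset.sum_add_distrib, ← Finset.sum_div] at this
  show (tidy z y b).gam P y + (z.beta + ∑ c, ∑ σ, S.tr (b c σ)) / P.tau ^ 2 ≤ _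
  rw [St.gam, St.gam, add_div]
  linarith

lemma o3 : S.tr (z.act * z.F y) + P.r * S.tr (1 - z.act) ≤
      S.tr ((tidy z y b).act * (tidy z y b).F y) + P.r * S.tr (1 - (tidy z y b).act) := by
  have hc := h0.hc
  have hc0 := h0.hc0
  have b2 := h0.b2
  have keep1 := h0.keep1
  have act1 := h0.act1
  have hr := h0.hr
  have hFle := h0.hFle
  have hFr := h0.hFr
  have hF' := h0.hF'
  have hcore := h0.hcore
  have hF'm := h0.hF'm
  have hF's := h0.hF's
  have hFm := h0.hFm
  have hFs := h0.hFs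
  rw [← S.tr_smul, ← S.tr_smul, ← S.tr_add, ← S.tr_add]
  refine tr_le_of_ev (add_mem (mul_mem hc.act_mem hFm) (S.rsmul_mem_A _ (sub_mem (one_mem _)
      hc.act_mem))) (add_mem (mul_mem hcore.act_mem hF'm) (S.rsmul_mem_A _ (sub_mem (one_mem _)
      hcore.act_mem))) ((mul_isSelfAdjoint hc.act_mem hFm hc.act_proj.isSelfAdjoint hFs).add
      ((IsSelfAdjoint.all _).smul hc.act_proj.one_sub.isSelfAdjoint))
    ((mul_isSelfAdjoint hcore.act_mem hF'm hcore.act_proj.isSelfAdjoint hF's).add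
      ((IsSelfAdjoint.all _).smul hcore.act_proj.one_sub.isSelfAdjoint)) fun χ => ?_
  rw [ev_add (mul_mem hc.act_mem hFm) (S.rsmul_mem_A _ (sub_mem (one_mem _) hc.act_mem)),
    ev_add (mul_mem hcore.act_mem hF'm) (S.rsmul_mem_A _ (sub_mem (one_mem _) hcore.act_mem)),
    ev_mul hc.act_mem hFm hc.act_proj.isSelfAdjoint,
    ev_mul hcore.act_mem hF'm hcore.act_proj.isSelfAdjoint,
    ev_smul _ (sub_mem (one_mem _) hc.act_mem), ev_smul _ (sub_mem (one_mem _) hcore.act_mem),
    ev_sub (one_mem _) hc.act_mem, ev_sub (one_mem _) hcore.act_mem, ev_one]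
  show _ ≤ S.ev χ (fnA S (newAct z (widen z b) y)) * _ + (P.r : ℝ) * (1 - S.ev χ (fnA S (newAct z (widen z b) y)))
  rw [ev_fnA]
  rcases b2 χ with h2 | h2
  · rcases ev_proj (χ := χ) hc.act_mem hc.act_proj with hA | hA
    · rw [h2, hA]; simp
    · rw [h2, hA]
      linarith [hFr χ hA]
  · rw [h2, (keep1 χ (act1 χ h2).1).1]
    linarith [hFle χ, hF' χ h2]

lemma obj_le : (tidy z y b).obj P y ≤ z.obj P y := by
  have hP := h0.hP
  have hc0 := h0.hc0
  have hr := h0.hr
  have o1 := h0.o1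
  have o2 := h0.o2
  have o3 := h0.o3
  show (tidy z y b).mF + _ + P.lam1 * _ - P.lam2 * _ ≤ _
  have hm : (tidy z y b).mF = z.mF + S.tr (fnA S (dropF z (widen z b) y)) := rfl
  rw [hm, St.obj]
  have := mul_le_mul_of_nonneg_left o2 hP.lam1_pos.le
  have := mul_le_mul_of_nonneg_left o3 hP.lam2_pos.le
  linarith [o1]


end Ctx

end Vale.Agent.P078.Tr.Iter.Clean
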