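import Vale.Agent.P078.Tr.Iter.Cleanup.Select

/-!
# Cleanup: the truncated and restricted state
-/

open scoped ComplexOrder InnerProductSpace

noncomputable section

namespace Vale.Agent.P078.Tr.Iter.Clean

universe u

variable {H : Type u} [NormedAddCommGroup H] [InnerProductSpace ℂ H] [CompleteSpace H]
  {S : Tracial H}

open Tracial

section Restrict

variable {P : Par} (z zt : St S P.r) (y : Op H)

/-- Enough potential. -/
def bigF : C(S.Chi, ℝ) := evMap S (cut (zt.F y) (3 / 5))

/-- No live colour has large slack. -/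
def smallB : C(S.Chi, ℝ) :=
  ∏ p : Fin P.r × Bool,
    (1 - evMap S (z.live p.1) * evMap S (cut (S.E (zt.B p.1 p.2)) (1 / 100)))

/-- Discarded for small potential. -/
def dropF : C(S.Chi, ℝ) := evMap S z.act * (1 - bigF zt y)

/-- Discarded for large slack. -/
def dropB : C(S.Chi, ℝ) := evMap S z.act * bigF zt y * (1 - smallB z zt)

/-- What is neither. -/
def keep : C(S.Chi, ℝ) := evMap S z.act * bigF zt y * smallB z zt

/-- Ready to freeze in a colour. -/
def ready (c : Fin P.r) : C(S.Chi, ℝ) :=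
  evMap S (z.live c) * (1 - evMap S (cut (z.a c) 500))

/-- Frozen now, in the first colour ready for it. -/
def freeze (c : Fin P.r) : C(S.Chi, ℝ) :=
  keep z zt y * (ready z c * ∏ c' ∈ Finset.univ.filter (fun c' => c' < c), (1 - ready z c'))

/-- Still active. -/
def newAct : C(S.Chi, ℝ) := keep z zt y * ∏ c, (1 - ready z c)

/-- Killed in a colour. -/
def kill (c : Fin P.r) : C(S.Chi, ℝ) :=
  1 - evMap S (cut (zt.side y c).fz P.c0) * (1 - evMap S (cut (z.a c) (1 / P.c0)))

/-- Still live in a colour. -/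
def newLive (c : Fin P.r) : C(S.Chi, ℝ) :=
  newAct z zt y * (evMap S (z.live c) * (1 - kill z zt y c))

/-- Lost by killing. -/
def killed : C(S.Chi, ℝ) :=
  ∑ c, newAct z zt y * (evMap S (z.live c) * kill z zt y c)

/-- The new support of a colour. -/
def newSup (c : Fin P.r) : Op H :=
  fnA S (newLive z zt y c) + (z.fro c + fnA S (freeze z zt y c))

/-- The restricted state. -/
def restrict (db : ℝ) : St S P.r where
  act := fnA S (newAct z zt y)
  live c := fnA S (newLive z zt y c)
  fro c := z.fro c + fnA S (freeze z zt y c)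
  a := z.a
  B c σ := newSup z zt y c * zt.B c σ * newSup z zt y c
  loss := z.loss + (3 * P.c0) • fnA S (killed z zt y)
  mB := z.mB + S.tr (fnA S (dropB z zt y))
  mF := z.mF + S.tr (fnA S (dropF z zt y))
  beta := z.beta + db

/-- The state with a larger slack. -/
def widen (b : Fin P.r → Bool → Op H) : St S P.r := { z with B := fun c σ => z.B c σ + b c σ }

/-- The truncated and restricted state. -/
def tidy (b : Fin P.r → Bool → Op H) : St S P.r :=
  restrict z (widen z b) y (∑ c, ∑ σ, S.tr (b c σ))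

end Restrict

/-- A loose state with truncations of all its operators. -/
structure Ctx (P : Par) (y : Op H) (z : St S P.r) (b : Fin P.r → Bool → Op H) : Prop where
  hB : Basics S
  hP : P.Ok
  hy : y ∈ S.M
  hE0 : S.E y = 0
  hz : z.Loose P y
  hbM : ∀ c σ, b c σ ∈ S.M
  hb0 : ∀ c σ, 0 ≤ b c σ
  hbsup : ∀ c σ, z.sup c * b c σ * z.sup c = b c σ
  hbK : ∀ c σ, P.tau • (1 : Op H) ≤ z.K y c σ + b c σ
  hbG : ∀ c σ, Ring.inverse (z.K y c σ + b c σ) ≤ Ring.inverse (z.K y c σ)
  hbtr : ∀ c σ, S.tr (z.sup c * Ring.inverse (z.K y c σ + b c σ)) + S.tr (b c σ) / P.tau ^ 2 ≤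
    S.tr (z.sup c * Ring.inverse (z.K y c σ))

namespace Ctx

variable {P : Par} {y : Op H} {z : St S P.r} {b : Fin P.r → Bool → Op H} (h0 : Ctx P y z b)
include h0

lemma hc : z.Core P := by
  have hz := h0.hz
  exact hz.toCore

lemma hw : Wf z := by
  have hc := h0.hc
  exact wf_of_core hc

lemma hτ : 0 < P.tau := by
  have hP := h0.hP
  exact hP.tau_pos

lemma hτ1 : P.tau ≤ 1 := by
  have hP := h0.hP
  exact hP.tau_le.trans (by norm_num)

lemma hc0 : 0 < P.c0 := by
  have hP := h0.hP
  exact hP.c0_pos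

lemma hwt : Wf (widen z b) := by
  have hbM := h0.hbM
  have hb0 := h0.hb0
  have hbsup := h0.hbsup
  have hw := h0.hw
  exact
    { live_mem := hw.live_mem, live_proj := hw.live_proj, fro_mem := hw.fro_mem,
      fro_proj := hw.fro_proj, live_fro := hw.live_fro, a_mem := hw.a_mem, a_sa := hw.a_sa,
      a_ge := hw.a_ge, B_mem := fun c σ => add_mem (hw.B_mem c σ) (hbM c σ),
      B_nonneg := fun c σ => add_nonneg (hw.B_nonneg c σ) (hb0 c σ),
      B_sup := fun c σ => by
        show z.sup c * (z.B c σ + b c σ) * z.sup c = z.B c σ + b c σ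
        rw [mul_add, add_mul, hw.B_sup c σ, hbsup c σ],
      loss_mem := hw.loss_mem, loss_sa := hw.loss_sa }

lemma hKt : ∀ c σ, (widen z b).K y c σ = z.K y c σ + b c σ := by
  exact fun c σ => by
    show z.a c * z.sup c - sg σ • (z.sup c * y * z.sup c) + (z.B c σ + b c σ) + (1 - z.sup c) = _
    rw [St.K]
    abel

lemma hKtlo : ∀ c σ, P.tau • (1 : Op H) ≤ (widen z b).K y c σ := by
  have hbK := h0.hbK
  have hKt := h0.hKt
  exact fun c σ => hKt c σ ▸ hbK c σ

lemma hGt : ∀ c σ, (widen z b).G y c σ ≤ z.G y c σ := by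
  have hbG := h0.hbG
  have hKt := h0.hKt
  exact fun c σ => by
    show Ring.inverse ((widen z b).K y c σ) ≤ Ring.inverse (z.K y c σ)
    rw [hKt]
    exact hbG c σ

lemma hhalf : (P.tau / 2) • (1 : Op H) ≤ P.tau • (1 : Op H) := by
  have hτ := h0.hτ
  exact 
    smul_le_smul_of_nonneg_right (half_le_self hτ.le) zero_le_one

lemma hfzt : ∀ c (χ : S.Chi), S.ev χ (z.side y c).fz ≤ S.ev χ ((widen z b).side y c).fz := by
  have hB := h0.hB
  have hy := h0.hy
  have hz := h0.hz
  have hw := h0.hw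
  have hτ := h0.hτ
  have hwt := h0.hwt
  have hKtlo := h0.hKtlo
  have hGt := h0.hGt
  have hhalf := h0.hhalf
  exact fun c χ =>
    fz_mono hw hwt hB hy (half_pos hτ) (fun σ => hz.K_lo c σ)
      (fun σ => hhalf.trans (hKtlo c σ)) rfl χ fun σ =>
      ev_le (hwt.g_mem hB hy) (hw.g_mem hB hy) (hwt.g_sa hB hy hτ (hKtlo c σ))
        (E_mono hB (hwt.G_mem hB hy) (hw.G_mem hB hy) (hGt c σ))

lemma hFt : (widen z b).F y ∈ S.A := by
  have hB := h0.hB
  have hy := h0.hy
  have hwt := h0.hwt
  exact F_mem hwt hB hy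

lemma hFts : IsSelfAdjoint ((widen z b).F y) := by
  have hB := h0.hB
  have hy := h0.hy
  have hτ := h0.hτ
  have hwt := h0.hwt
  have hKtlo := h0.hKtlo
  exact F_sa hwt hB hy hτ hKtlo

lemma hEBm : ∀ c σ, S.E ((widen z b).B c σ) ∈ S.A := by
  have hB := h0.hB
  have hwt := h0.hwt
  exact fun c σ => hB.E_mem _ (hwt.B_mem c σ)

lemma hEB0 : ∀ c σ, 0 ≤ S.E ((widen z b).B c σ) := by
  have hB := h0.hB
  have hwt := h0.hwt
  exact fun c σ =>
    hB.E_nonneg _ (hwt.B_mem c σ) (hwt.B_nonneg c σ)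

lemma hEBs : ∀ c σ, IsSelfAdjoint (S.E ((widen z b).B c σ)) := by
  have hEB0 := h0.hEB0
  exact fun c σ => IsSelfAdjoint.of_nonneg (hEB0 c σ)

lemma hfzm : ∀ c, ((widen z b).side y c).fz ∈ S.A := by
  have hB := h0.hB
  have hy := h0.hy
  have hwt := h0.hwt
  exact fun c => hwt.fz_mem hB hy

lemma hfzs : ∀ c, IsSelfAdjoint ((widen z b).side y c).fz := by
  have hB := h0.hB
  have hy := h0.hy
  have hτ := h0.hτ
  have hwt := h0.hwt
  have hKtlo := h0.hKtlo
  exact fun c => hwt.fz_sa hB hy hτ (hKtlo c)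

lemma bA : Bin (evMap S z.act) := by
  have hc := h0.hc
  exact bin_evMap hc.act_mem hc.act_proj

lemma bL : ∀ c, Bin (evMap S (z.live c)) := by
  have hc := h0.hc
  exact fun c => bin_evMap (hc.live_mem c) (hc.live_proj c)

lemma bO : ∀ c, Bin (evMap S (z.fro c)) := by
  have hc := h0.hc
  exact fun c => bin_evMap (hc.fro_mem c) (hc.fro_proj c)

lemma bF : Bin (bigF (widen z b) y) := by
  have hFt := h0.hFt
  exact bin_evMap (S.cut_mem_A hFt _) (isStarProjection_cut _ _)

lemma bB : Bin (smallB z (widen z b)) := by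
  have hEBm := h0.hEBm
  have bL := h0.bL
  exact Bin.prod fun p _ =>
    ((bL p.1).mul (bin_evMap (S.cut_mem_A (hEBm _ _) _) (isStarProjection_cut _ _))).one_sub

lemma b1 : Bin (keep z (widen z b) y) := by
  have bA := h0.bA
  have bF := h0.bF
  have bB := h0.bB
  exact (bA.mul bF).mul bB

lemma bq : ∀ c, Bin (ready z c) := by
  have hc := h0.hc
  have bL := h0.bL
  exact fun c =>
    (bL c).mul (bin_evMap (S.cut_mem_A (hc.a_mem c) _) (isStarProjection_cut _ _)).one_sub

lemma bfr : ∀ c, Bin (freeze z (widen z b) y c) := by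
  have b1 := h0.b1
  have bq := h0.bq
  exact fun c =>
    b1.mul ((bq c).mul (Bin.prod fun i _ => (bq i).one_sub))

lemma b2 : Bin (newAct z (widen z b) y) := by
  have b1 := h0.b1
  have bq := h0.bq
  exact b1.mul (Bin.prod fun c _ => (bq c).one_sub)

lemma bk : ∀ c, Bin (kill z (widen z b) y c) := by
  have hc := h0.hc
  have hfzm := h0.hfzm
  exact fun c =>
    ((bin_evMap (S.cut_mem_A (hfzm c) _) (isStarProjection_cut _ _)).mul
      (bin_evMap (S.cut_mem_A (hc.a_mem c) _) (isStarProjection_cut _ _)).one_sub).one_sub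

lemma bnl : ∀ c, Bin (newLive z (widen z b) y c) := by
  have bL := h0.bL
  have b2 := h0.b2
  have bk := h0.bk
  exact fun c => b2.mul ((bL c).mul (bk c).one_sub)

lemma hLA : ∀ c (χ : S.Chi), S.ev χ (z.live c) = 1 → S.ev χ z.act = 1 := by
  have hc := h0.hc
  exact fun c χ h => by
    have e := congrArg (S.ev χ) (hc.live_act c)
    rw [ev_mul hc.act_mem (hc.live_mem c) hc.act_proj.isSelfAdjoint, h, mul_one] at e
    exact e

lemma hAO : ∀ c (χ : S.Chi), S.ev χ z.act = 1 → S.ev χ (z.fro c) = 0 := by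
  have hc := h0.hc
  exact fun c χ h => by
    have e := congrArg (S.ev χ) (hc.fro_act c)
    rw [ev_mul hc.act_mem (hc.fro_mem c) hc.act_proj.isSelfAdjoint, h, one_mul, ev_zero] at e
    exact e

lemma keep1 : ∀ χ : S.Chi, keep z (widen z b) y χ = 1 →
      S.ev χ z.act = 1 ∧ 3 / 5 ≤ S.ev χ ((widen z b).F y) ∧
        ∀ c σ, S.ev χ (z.live c) = 1 → S.ev χ (S.E ((widen z b).B c σ)) ≤ 1 / 100 := by
  have hFt := h0.hFt
  have hFts := h0.hFts
  have hEBm := h0.hEBm
  have hEBs := h0.hEBs
  have bA := h0.bA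
  have bF := h0.bF
  have bB := h0.bB
  intro χ h
  simp only [keep, ContinuousMap.mul_apply, evMap_apply] at h
  have hA : S.ev χ z.act = 1 := (bA χ).resolve_left fun e => by simp [show S.ev χ z.act = 0 from e] at h
  have hF : bigF (widen z b) y χ = 1 := (bF χ).resolve_left fun e => by simp [e] at h
  have hS : smallB z (widen z b) χ = 1 := (bB χ).resolve_left fun e => by simp [e] at h
  refine ⟨hA, ev_cut_eq_one hFt hFts hF, fun c σ hl => ?_⟩
  simp only [smallB, ContinuousMap.prod_apply, ContinuousMap.sub_apply, ContinuousMap.one_apply,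
    ContinuousMap.mul_apply, evMap_apply] at hS
  refine ev_cut_eq_zero (hEBm c σ) (hEBs c σ) ?_
  refine (ev_proj (S.cut_mem_A (hEBm c σ) _) (isStarProjection_cut _ _)).resolve_right fun e => ?_
  have : ∏ p : Fin P.r × Bool, (1 - S.ev χ (z.live p.1) *
      S.ev χ (cut (S.E ((widen z b).B p.1 p.2)) (1 / 100))) = 0 :=
    Finset.prod_eq_zero (Finset.mem_univ (c, σ)) (by simp only [hl, e]; ring)
  rw [this] at hS
  exact zero_ne_one hS

lemma act1 : ∀ χ : S.Chi, newAct z (widen z b) y χ = 1 → keep z (widen z b) y χ = 1 ∧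
      ∀ c, ready z c χ = 0 := by
  have b1 := h0.b1
  have bq := h0.bq
  intro χ h
  simp only [newAct, ContinuousMap.mul_apply, ContinuousMap.prod_apply, ContinuousMap.sub_apply,
    ContinuousMap.one_apply] at h
  refine ⟨(b1 χ).resolve_left fun e => by simp [e] at h,
    fun c => (bq c χ).resolve_right fun e => ?_⟩
  rw [Finset.prod_eq_zero (Finset.mem_univ c) (by rw [e, sub_self]), mul_zero] at h
  exact zero_ne_one h

lemma freeze1 : ∀ c (χ : S.Chi), freeze z (widen z b) y c χ = 1 → keep z (widen z b) y χ = 1 ∧ ready z c χ = 1 ∧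
      ∀ i, i < c → ready z i χ = 0 := by
  have b1 := h0.b1
  have bq := h0.bq
  intro c χ h
  simp only [freeze, ContinuousMap.mul_apply, ContinuousMap.prod_apply, ContinuousMap.sub_apply,
    ContinuousMap.one_apply] at h
  refine ⟨(b1 χ).resolve_left fun e => by simp [e] at h,
    (bq c χ).resolve_left fun e => by simp [e] at h,
    fun i hi => (bq i χ).resolve_right fun e => ?_⟩
  rw [Finset.prod_eq_zero (Finset.mem_filter.2 ⟨Finset.mem_univ i, hi⟩) (by rw [e, sub_self]),
    mul_zero, mul_zero] at h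
  exact zero_ne_one h

lemma ready1 : ∀ c (χ : S.Chi), ready z c χ = 1 →
      S.ev χ (z.live c) = 1 ∧ S.ev χ (z.a c) ≤ 500 := by
  have hc := h0.hc
  intro c χ h
  simp only [ready, ContinuousMap.mul_apply, ContinuousMap.sub_apply, ContinuousMap.one_apply,
    evMap_apply] at h
  have hl : S.ev χ (z.live c) = 1 :=
    (ev_proj (hc.live_mem c) (hc.live_proj c)).resolve_left fun e => by simp [e] at h
  rw [hl, one_mul, sub_eq_self] at h
  exact ⟨hl, ev_cut_eq_zero (hc.a_mem c) (hc.a_sa c) h⟩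

lemma live1 : ∀ c (χ : S.Chi), newLive z (widen z b) y c χ = 1 →
      newAct z (widen z b) y χ = 1 ∧ S.ev χ (z.live c) = 1 ∧ kill z (widen z b) y c χ = 0 := by
  have hc := h0.hc
  have b2 := h0.b2
  have bk := h0.bk
  intro c χ h
  simp only [newLive, ContinuousMap.mul_apply, ContinuousMap.sub_apply, ContinuousMap.one_apply,
    evMap_apply] at h
  exact ⟨(b2 χ).resolve_left fun e => by simp [e] at h,
    (ev_proj (hc.live_mem c) (hc.live_proj c)).resolve_left fun e => by simp [e] at h,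
    (bk c χ).resolve_right fun e => by simp [e] at h⟩

end Ctx

end Vale.Agent.P078.Tr.Iter.Clean
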