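import Vale.Agent.P078.Tr.Iter.Cleanup.Side

/-!
# Cleanup: zero-one functions on the characters and their projections
-/

open scoped ComplexOrder InnerProductSpace

noncomputable section

namespace Vale.Agent.P078.Tr.Iter.Clean

universe u

variable {H : Type u} [NormedAddCommGroup H] [InnerProductSpace ℂ H] [CompleteSpace H]
  {S : Tracial H}

open Tracial

variable (S) in
/-- An operator as a function on the characters. -/
def evMap (x : Op H) : C(S.Chi, ℝ) := ⟨_, continuous_ev S x⟩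

@[simp] lemma evMap_apply (x : Op H) (χ : S.Chi) : evMap S x χ = S.ev χ x := rfl

/-- Only the values zero and one. -/
def Bin (φ : C(S.Chi, ℝ)) : Prop := ∀ χ, φ χ = 0 ∨ φ χ = 1

lemma bin_evMap {e : Op H} (he : e ∈ S.A) (hp : IsStarProjection e) : Bin (evMap S e) :=
  fun _ => ev_proj he hp

lemma Bin.mul {φ ψ : C(S.Chi, ℝ)} (h : Bin φ) (h' : Bin ψ) : Bin (φ * ψ) := fun χ => by
  rw [ContinuousMap.mul_apply]
  rcases h χ with a | a <;> rcases h' χ with b | b <;> simp [a, b]

lemma Bin.one_sub {φ : C(S.Chi, ℝ)} (h : Bin φ) : Bin (1 - φ) := fun χ => by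
  rw [ContinuousMap.sub_apply, ContinuousMap.one_apply]
  rcases h χ with a | a <;> simp [a]

lemma Bin.prod {ι : Type*} {s : Finset ι} {φ : ι → C(S.Chi, ℝ)} (h : ∀ i ∈ s, Bin (φ i)) :
    Bin (∏ i ∈ s, φ i) := fun χ => by
  rw [ContinuousMap.prod_apply]
  by_cases h0 : ∃ i ∈ s, φ i χ = 0
  · obtain ⟨i, hi, h0⟩ := h0
    exact Or.inl (Finset.prod_eq_zero hi h0)
  · push Not at h0
    exact Or.inr (Finset.prod_eq_one fun i hi => (h i hi χ).resolve_left (h0 i hi))

lemma isStarProjection_fnA {φ : C(S.Chi, ℝ)} (h : Bin φ) : IsStarProjection (fnA S φ) where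
  isIdempotentElem := by
    have hm := fnA_mem (S := S) φ
    refine (ext_iff_ev (mul_mem hm hm) hm
      (mul_isSelfAdjoint hm hm (fnA_isSelfAdjoint φ) (fnA_isSelfAdjoint φ))
      (fnA_isSelfAdjoint φ)).2 fun χ => ?_
    rw [ev_mul hm hm (fnA_isSelfAdjoint φ), ev_fnA]
    rcases h χ with a | a <;> simp [a]
  isSelfAdjoint := fnA_isSelfAdjoint φ

end Vale.Agent.P078.Tr.Iter.Clean
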