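import Vale.Agent.P078.Tr.Iter.State

/-!
# Cleanup: values of the quantities of a colour at characters
-/

open scoped ComplexOrder InnerProductSpace

noncomputable section

namespace Vale.Agent.P078.Tr.Iter

universe u

variable {H : Type u} [NormedAddCommGroup H] [InnerProductSpace ℂ H] [CompleteSpace H]
  {S : Tracial H}

open Tracial

namespace Clean

lemma isUnit_of_ev_ne {x : Op H} (hx : x ∈ S.A) (h : ∀ χ : S.Chi, S.ev χ x ≠ 0) :
    IsUnit x := by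
  refine (S.A.coe_isUnit (a := ⟨x, hx⟩)).2 ?_
  by_contra hu
  have h0 : (0 : ℂ) ∈ spectrum ℂ (⟨x, hx⟩ : S.Alg) := (spectrum.zero_mem_iff ℂ).2 hu
  obtain ⟨χ, hχ⟩ := WeakDual.CharacterSpace.mem_spectrum_iff_exists.1 h0
  exact h χ (by rw [Tracial.ev, evC_of_mem hx]; exact congrArg Complex.re hχ)

lemma tr_le_of_ev {x x' : Op H} (hx : x ∈ S.A) (hx' : x' ∈ S.A) (hs : IsSelfAdjoint x)
    (hs' : IsSelfAdjoint x') (h : ∀ χ : S.Chi, S.ev χ x ≤ S.ev χ x') : S.tr x ≤ S.tr x' :=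
  S.tr_mono ((le_iff hx hx' hs hs').2 h)

lemma mul_isSelfAdjoint {x x' : Op H} (hx : x ∈ S.A) (hx' : x' ∈ S.A) (hs : IsSelfAdjoint x)
    (hs' : IsSelfAdjoint x') : IsSelfAdjoint (x * x') := by
  rw [IsSelfAdjoint, star_mul, hs.star_eq, hs'.star_eq, S.comm _ hx' _ hx]

/-- The algebraic part of the invariants of a state. -/
structure Wf {r : ℕ} (z : St S r) : Prop where
  live_mem : ∀ c, z.live c ∈ S.A
  live_proj : ∀ c, IsStarProjection (z.live c)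
  fro_mem : ∀ c, z.fro c ∈ S.A
  fro_proj : ∀ c, IsStarProjection (z.fro c)
  live_fro : ∀ c, z.live c * z.fro c = 0
  a_mem : ∀ c, z.a c ∈ S.A
  a_sa : ∀ c, IsSelfAdjoint (z.a c)
  a_ge : ∀ c (χ : S.Chi), 1 ≤ S.ev χ (z.a c)
  B_mem : ∀ c σ, z.B c σ ∈ S.M
  B_nonneg : ∀ c σ, 0 ≤ z.B c σ
  B_sup : ∀ c σ, z.sup c * z.B c σ * z.sup c = z.B c σ
  loss_mem : z.loss ∈ S.A
  loss_sa : IsSelfAdjoint z.loss

lemma wf_of_core {P : Par} {z : St S P.r} (hc : z.Core P) : Wf z where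
  live_mem := hc.live_mem
  live_proj := hc.live_proj
  fro_mem := hc.fro_mem
  fro_proj := hc.fro_proj
  live_fro c := by
    rw [← hc.live_act c, S.comm _ hc.act_mem _ (hc.live_mem c), mul_assoc, hc.fro_act c, mul_zero]
  a_mem := hc.a_mem
  a_sa := hc.a_sa
  a_ge := hc.a_ge
  B_mem := hc.B_mem
  B_nonneg := hc.B_nonneg
  B_sup := hc.B_sup
  loss_mem := hc.loss_mem
  loss_sa := hc.loss_sa

variable {r : ℕ} {z : St S r} {y : Op H}

namespace Wf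

variable (hw : Wf z)
include hw

lemma sup_mem (c : Fin r) : z.sup c ∈ S.A := add_mem (hw.live_mem c) (hw.fro_mem c)

lemma sup_proj (c : Fin r) : IsStarProjection (z.sup c) :=
  (hw.live_proj c).add (hw.fro_proj c) (hw.live_fro c)

lemma K_mem (hy : y ∈ S.M) (c : Fin r) (σ : Bool) : z.K y c σ ∈ S.M := by
  have hs := S.le _ (hw.sup_mem c)
  exact add_mem (add_mem (sub_mem (mul_mem (S.le _ (hw.a_mem c)) hs)
    (S.rsmul_mem_M _ (mul_mem (mul_mem hs hy) hs))) (hw.B_mem c σ)) (sub_mem (one_mem _) hs)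

lemma K_mul_one_sub (c : Fin r) (σ : Bool) :
    z.K y c σ * (1 - z.sup c) = 1 - z.sup c := by
  have he := (hw.sup_proj c).isIdempotentElem.eq
  have h0 : z.sup c * (1 - z.sup c) = 0 := by rw [mul_sub, mul_one, he, sub_self]
  have h1 : z.B c σ * (1 - z.sup c) = 0 := by rw [← hw.B_sup c σ, mul_assoc, h0, mul_zero]
  rw [St.K, add_mul, add_mul, sub_mul, mul_assoc _ (z.sup c), h0, smul_mul_assoc,
    mul_assoc _ (z.sup c), h0, h1, (hw.sup_proj c).one_sub.isIdempotentElem.eq, mul_zero, mul_zero,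
    smul_zero, sub_zero, add_zero, zero_add]

variable (hB : Basics S) (hy : y ∈ S.M) {c : Fin r} {σ : Bool}
include hB hy

lemma G_mem : z.G y c σ ∈ S.M := S.inverse_mem_M (hw.K_mem hy c σ)

lemma g_mem : S.E (z.G y c σ) ∈ S.A := hB.E_mem _ (hw.G_mem hB hy)

lemma ev_EK (hE0 : S.E y = 0) (χ : S.Chi) :
    S.ev χ (S.E (z.K y c σ)) = S.ev χ (z.a c) * S.ev χ (z.sup c) + S.ev χ (S.E (z.B c σ)) +
      (1 - S.ev χ (z.sup c)) := by
  have hs := hw.sup_mem c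
  have hsM := S.le _ hs
  have has := mul_mem (hw.a_mem c) hs
  have hsys : z.sup c * y * z.sup c ∈ S.M := mul_mem (mul_mem hsM hy) hsM
  have hEB := hB.E_mem _ (hw.B_mem c σ)
  have e1 : S.E (z.sup c * y * z.sup c) = 0 := by
    rw [mul_assoc, (hB.E_mul _ hs _ (mul_mem hy hsM)).1, (hB.E_mul _ hs _ hy).2, hE0, mul_zero,
      mul_zero]
  have h1 : z.a c * z.sup c - sg σ • (z.sup c * y * z.sup c) ∈ S.M :=
    sub_mem (S.le _ has) (S.rsmul_mem_M _ hsys)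
  rw [St.K, hB.E_add _ (add_mem h1 (hw.B_mem c σ)) _ (sub_mem (one_mem _) hsM),
    hB.E_add _ h1 _ (hw.B_mem c σ), E_sub hB (S.le _ has) (S.rsmul_mem_M _ hsys),
    E_rsmul hB _ hsys, e1, smul_zero, sub_zero, hB.E_self _ has,
    hB.E_self _ (sub_mem (one_mem _) hs), ev_add (add_mem has hEB) (sub_mem (one_mem _) hs),
    ev_add has hEB, ev_mul (hw.a_mem c) hs (hw.a_sa c), ev_sub (one_mem _) hs, ev_one]

variable {t : ℝ} (ht : 0 < t) (hK : t • (1 : Op H) ≤ z.K y c σ)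
include ht hK

lemma g_pos (χ : S.Chi) : 0 < S.ev χ (S.E (z.G y c σ)) := by
  have hKM := hw.K_mem hy c σ
  have hg0 : 0 ≤ S.E (z.G y c σ) := hB.E_nonneg _ (hw.G_mem hB hy) (inverse_nonneg ht hK)
  have h1 := one_le_E_mul_E hB ht hK hKM
  have hgs : IsSelfAdjoint (S.E (z.G y c σ)) := IsSelfAdjoint.of_nonneg hg0
  have hm := mul_mem (hw.g_mem hB hy (c := c) (σ := σ)) (hB.E_mem _ hKM)
  have h2 := ev_le (χ := χ) (one_mem _) hm (IsSelfAdjoint.one _) h1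
  rw [ev_one, ev_mul (hw.g_mem hB hy) (hB.E_mem _ hKM) hgs] at h2
  rcases (ev_nonneg (χ := χ) (hw.g_mem hB hy (c := c) (σ := σ)) hg0).eq_or_lt with h | h
  · rw [← h, zero_mul] at h2
    linarith
  · exact h

lemma g_sa : IsSelfAdjoint (S.E (z.G y c σ)) :=
  IsSelfAdjoint.of_nonneg (hB.E_nonneg _ (hw.G_mem hB hy) (inverse_nonneg ht hK))

lemma ev_gi (χ : S.Chi) :
    S.ev χ ((z.side y c).gi σ) = (S.ev χ (S.E (z.G y c σ)))⁻¹ :=
  ev_inverse (hw.g_mem hB hy) (hw.g_sa hB hy ht hK)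
    (isUnit_of_ev_ne (hw.g_mem hB hy) fun ψ => (hw.g_pos hB hy ht hK ψ).ne')

lemma gi_le_EK (χ : S.Chi) :
    S.ev χ ((z.side y c).gi σ) ≤ S.ev χ (S.E (z.K y c σ)) := by
  have hKM := hw.K_mem hy c σ
  have h1 := one_le_E_mul_E hB ht hK hKM
  have hg := hw.g_pos hB hy ht hK χ
  have h2 := ev_le (χ := χ) (one_mem _)
    (mul_mem (hw.g_mem hB hy (c := c) (σ := σ)) (hB.E_mem _ hKM)) (IsSelfAdjoint.one _) h1
  rw [ev_one, ev_mul (hw.g_mem hB hy) (hB.E_mem _ hKM) (hw.g_sa hB hy ht hK)] at h2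
  rw [hw.ev_gi hB hy ht hK χ, inv_eq_one_div, div_le_iff₀ hg]
  linarith [mul_comm (S.ev χ (S.E (z.K y c σ))) (S.ev χ (S.E (z.G y c σ)))]

omit ht hK

lemma a_unit : IsUnit (z.a c) :=
  isUnit_of_ev_ne (hw.a_mem c) fun χ => by linarith [hw.a_ge c χ]

lemma pot_mem : (z.side y c).pot ∈ S.A :=
  add_mem (S.inverse_mem_A (hw.a_mem c))
    (S.rsmul_mem_A _ (mul_mem (S.inverse_mem_A (hw.a_mem c)) (S.inverse_mem_A (hw.a_mem c))))

lemma pot_sa : IsSelfAdjoint (z.side y c).pot :=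
  (inverse_isSelfAdjoint (hw.a_sa c)).add ((IsSelfAdjoint.all _).smul
    (mul_isSelfAdjoint (S.inverse_mem_A (hw.a_mem c)) (S.inverse_mem_A (hw.a_mem c))
      (inverse_isSelfAdjoint (hw.a_sa c)) (inverse_isSelfAdjoint (hw.a_sa c))))

lemma ev_pot (χ : S.Chi) :
    S.ev χ (z.side y c).pot =
      (S.ev χ (z.a c))⁻¹ + 204 * ((S.ev χ (z.a c))⁻¹ * (S.ev χ (z.a c))⁻¹) := by
  have hp := S.inverse_mem_A (hw.a_mem c)
  have e : (z.side y c).pot = Ring.inverse (z.a c) +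
      kB • (Ring.inverse (z.a c) * Ring.inverse (z.a c)) := rfl
  rw [e, ev_add hp (S.rsmul_mem_A _ (mul_mem hp hp)), ev_smul _ (mul_mem hp hp),
    ev_mul hp hp (inverse_isSelfAdjoint (hw.a_sa c)),
    ev_inverse (hw.a_mem c) (hw.a_sa c) (hw.a_unit hB hy), kB]

lemma pot_nonneg (χ : S.Chi) : 0 ≤ S.ev χ (z.side y c).pot := by
  rw [hw.ev_pot hB hy χ]
  have h : 0 ≤ (S.ev χ (z.a c))⁻¹ := inv_nonneg.2 (by linarith [hw.a_ge c χ])
  positivity

lemma pot_le (χ : S.Chi) {s : ℝ} (hs : 0 < s) (h : s⁻¹ ≤ S.ev χ (z.a c)) :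
    S.ev χ (z.side y c).pot ≤ s + 204 * (s * s) := by
  rw [hw.ev_pot hB hy χ]
  have h0 : 0 ≤ (S.ev χ (z.a c))⁻¹ := inv_nonneg.2 (by linarith [hw.a_ge c χ])
  have h1 : (S.ev χ (z.a c))⁻¹ ≤ s := by
    rw [← inv_inv s]
    exact inv_anti₀ (inv_pos.2 hs) h
  gcongr

omit σ

lemma xi_mem (σ : Bool) : (z.side y c).xi σ ∈ S.A :=
  sub_mem (hw.a_mem c) (S.inverse_mem_A (hw.g_mem hB hy))

lemma fz_mem : (z.side y c).fz ∈ S.A :=
  sub_mem (sub_mem (one_mem _) (hw.xi_mem hB hy false)) (hw.xi_mem hB hy true)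

lemma ev_fz (χ : S.Chi) :
    S.ev χ (z.side y c).fz = 1 - 2 * S.ev χ (z.a c) + S.ev χ ((z.side y c).gi false) +
      S.ev χ ((z.side y c).gi true) := by
  have hf := hw.xi_mem hB hy (c := c) false
  have htr := hw.xi_mem hB hy (c := c) true
  have hgi : ∀ σ, (z.side y c).gi σ ∈ S.A := fun σ => S.inverse_mem_A (hw.g_mem hB hy)
  have e : ∀ σ, S.ev χ ((z.side y c).xi σ) = S.ev χ (z.a c) - S.ev χ ((z.side y c).gi σ) :=
    fun σ => by
      show S.ev χ (z.a c - (z.side y c).gi σ) = _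
      exact ev_sub (hw.a_mem c) (hgi σ)
  rw [Side.fz, ev_sub (sub_mem (one_mem _) hf) htr, ev_sub (one_mem _) hf, ev_one, e, e]
  ring

variable (hlo : ∀ σ, t • (1 : Op H) ≤ z.K y c σ)
include ht hlo

lemma fz_sa : IsSelfAdjoint (z.side y c).fz :=
  ((IsSelfAdjoint.one _).sub ((hw.a_sa c).sub
    (inverse_isSelfAdjoint (hw.g_sa hB hy ht (hlo false))))).sub
    ((hw.a_sa c).sub (inverse_isSelfAdjoint (hw.g_sa hB hy ht (hlo true))))

lemma fz_le (hE0 : S.E y = 0) (χ : S.Chi) (hl : S.ev χ (z.sup c) = 1) {s : ℝ}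
    (hs : ∀ σ, S.ev χ (S.E (z.B c σ)) ≤ s) : S.ev χ (z.side y c).fz ≤ 1 + 2 * s := by
  have h1 := hw.gi_le_EK hB hy ht (hlo false) χ
  have h2 := hw.gi_le_EK hB hy ht (hlo true) χ
  rw [hw.ev_EK hB hy hE0, hl] at h1 h2
  rw [hw.ev_fz hB hy]
  linarith [hs false, hs true]

omit ht hlo

end Wf

/-- Smaller resolvents give a larger factor. -/
lemma fz_mono {r : ℕ} {z z' : St S r} {y : Op H} (hw : Wf z) (hw' : Wf z') (hB : Basics S)
    (hy : y ∈ S.M) {t : ℝ} (ht : 0 < t) {c : Fin r} (hlo : ∀ σ, t • (1 : Op H) ≤ z.K y c σ)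
    (hlo' : ∀ σ, t • (1 : Op H) ≤ z'.K y c σ) (ha : z'.a c = z.a c) (χ : S.Chi)
    (h : ∀ σ, S.ev χ (S.E (z'.G y c σ)) ≤ S.ev χ (S.E (z.G y c σ))) :
    S.ev χ (z.side y c).fz ≤ S.ev χ (z'.side y c).fz := by
  have hle : ∀ σ, S.ev χ ((z.side y c).gi σ) ≤ S.ev χ ((z'.side y c).gi σ) := fun σ => by
    rw [hw.ev_gi hB hy ht (hlo σ), hw'.ev_gi hB hy ht (hlo' σ)]
    exact inv_anti₀ (hw'.g_pos hB hy ht (hlo' σ) χ) (h σ)
  rw [hw.ev_fz hB hy, hw'.ev_fz hB hy, ha]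
  linarith [hle false, hle true]

section Potential

variable {r : ℕ} {z : St S r} {y : Op H} (hw : Wf z) (hB : Basics S) (hy : y ∈ S.M)
include hw hB hy

lemma F_mem : z.F y ∈ S.A :=
  add_mem (sum_mem fun c _ => mul_mem (hw.live_mem c) (mul_mem (hw.pot_mem hB hy) (hw.fz_mem hB hy)))
    hw.loss_mem

lemma ev_F (χ : S.Chi) :
    S.ev χ (z.F y) = ∑ c, S.ev χ (z.live c) *
      (S.ev χ (z.side y c).pot * S.ev χ (z.side y c).fz) + S.ev χ z.loss := by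
  have hm : ∀ c, (z.side y c).pot * (z.side y c).fz ∈ S.A :=
    fun c => mul_mem (hw.pot_mem hB hy) (hw.fz_mem hB hy)
  rw [St.F, ev_add (sum_mem fun c _ => mul_mem (hw.live_mem c) (hm c)) hw.loss_mem,
    ev_sum _ _ fun c _ => mul_mem (hw.live_mem c) (hm c)]
  congr 1
  refine Finset.sum_congr rfl fun c _ => ?_
  rw [ev_mul (hw.live_mem c) (hm c) (hw.live_proj c).isSelfAdjoint,
    ev_mul (hw.pot_mem hB hy) (hw.fz_mem hB hy) (hw.pot_sa hB hy)]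

lemma F_sa {t : ℝ} (ht : 0 < t) (hlo : ∀ c σ, t • (1 : Op H) ≤ z.K y c σ) :
    IsSelfAdjoint (z.F y) :=
  (isSelfAdjoint_sum _ fun c _ => mul_isSelfAdjoint (hw.live_mem c)
    (mul_mem (hw.pot_mem hB hy) (hw.fz_mem hB hy)) (hw.live_proj c).isSelfAdjoint
    (mul_isSelfAdjoint (hw.pot_mem hB hy) (hw.fz_mem hB hy) (hw.pot_sa hB hy)
      (hw.fz_sa hB hy ht (hlo c)))).add hw.loss_sa

end Potential

end Clean

end Vale.Agent.P078.Tr.Iter
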