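import Vale.Agent.P078.Tr.Iter.Inverse

/-!
# Cleanup: truncation and compression of one operator
-/

open scoped ComplexOrder InnerProductSpace

noncomputable section

namespace Vale.Agent.P078.Tr.Iter

universe u

variable {H : Type u} [NormedAddCommGroup H] [InnerProductSpace ℂ H] [CompleteSpace H]
  {S : Tracial H}

lemma commute_of_mul_one_sub {K e : Op H} (hK : IsSelfAdjoint K) (he : IsStarProjection e)
    (h : K * (1 - e) = 1 - e) : Commute K e := by
  have h' := congrArg star h
  rw [star_mul, hK.star_eq, he.one_sub.isSelfAdjoint.star_eq] at h'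
  have : Commute K (1 - e) := h.trans h'.symm
  simpa using (Commute.one_right K).sub_right this

lemma smul_one_le_compress {Kt e : Op H} {τ : ℝ} (hτ1 : τ ≤ 1) (hK : τ • (1 : Op H) ≤ Kt)
    (he : IsStarProjection e) : τ • (1 : Op H) ≤ e * Kt * e + (1 - e) := by
  have h := star_left_conjugate_le_conjugate hK e
  rw [he.isSelfAdjoint.star_eq, mul_smul_comm, mul_one, smul_mul_assoc,
    he.isIdempotentElem.eq] at h
  have h2 : τ • (1 - e) ≤ 1 - e := by
    have := smul_le_smul_of_nonneg_right hτ1 he.one_sub.nonneg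
    rwa [one_smul] at this
  calc τ • (1 : Op H) = τ • e + τ • (1 - e) := by rw [← smul_add, add_sub_cancel]
    _ ≤ _ := add_le_add h h2

/-- Lifting the spectrum of `K` above `τ` inside `e`. -/
lemma truncate {K e : Op H} {t τ : ℝ} (ht : 0 < t) (hτ : 0 < τ) (hτ1 : τ ≤ 1) (hKM : K ∈ S.M)
    (heM : e ∈ S.M) (hK : t • (1 : Op H) ≤ K) (he : IsStarProjection e)
    (hKe : K * (1 - e) = 1 - e) :
    ∃ b ∈ S.M, 0 ≤ b ∧ e * b * e = b ∧ τ • (1 : Op H) ≤ K + b ∧
      Ring.inverse (K + b) ≤ Ring.inverse K ∧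
      S.tr (e * Ring.inverse (K + b)) + S.tr b / τ ^ 2 ≤ S.tr (e * Ring.inverse K) := by
  have hKs : IsSelfAdjoint K := isSelfAdjoint_of_le hK
  have hu := isUnit_of_le ht hK
  have hc := commute_of_mul_one_sub hKs he hKe
  have hes := he.isSelfAdjoint.star_eq
  have hee := he.isIdempotentElem.eq
  have hsp : ∀ z ∈ spectrum ℝ K, t ≤ z := by
    rw [← Algebra.algebraMap_eq_smul_one] at hK
    exact (algebraMap_le_iff_le_spectrum (R := ℝ) (a := K) hKs).1 hK
  set f := cfc (fun z : ℝ => max (τ - z) 0) K with hf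
  set M := cfc (fun z : ℝ => max z τ) K with hM
  set J := cfc (fun z : ℝ => (max z τ)⁻¹) K with hJ
  set G := Ring.inverse K with hG
  have hne : ∀ z : ℝ, max z τ ≠ 0 := fun z => (lt_of_lt_of_le hτ (le_max_right z τ)).ne'
  have hJc : ContinuousOn (fun z : ℝ => (max z τ)⁻¹) (spectrum ℝ K) :=
    (continuous_id.max continuous_const).continuousOn.inv₀ fun z _ => hne z
  have hKf : K + f = M := by
    rw [hf, hM]
    calc K + cfc (fun z : ℝ => max (τ - z) 0) K
        = cfc (fun z : ℝ => z) K + cfc (fun z : ℝ => max (τ - z) 0) K := by rw [cfc_id' ℝ K]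
      _ = cfc (fun z : ℝ => z + max (τ - z) 0) K := (cfc_add K _ _).symm
      _ = _ := cfc_congr fun z _ => by
          rcases le_total z τ with hz | hz <;> simp [hz]
  have hMlo : τ • (1 : Op H) ≤ M := by
    rw [← Algebra.algebraMap_eq_smul_one, hM]
    exact (algebraMap_le_cfc_iff _ τ K).2 fun z _ => le_max_right z τ
  have hcM : Commute M e := hc.cfc_real _
  have hcJ : Commute J e := hc.cfc_real _
  have hJM : J * M = 1 := by
    rw [hJ, hM, ← cfc_mul _ _ K hJc, ← cfc_one ℝ K]
    exact cfc_congr fun z _ => inv_mul_cancel₀ (hne z)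
  have hGe : G * (1 - e) = 1 - e := by
    conv_lhs => rw [← hKe, ← mul_assoc, hG, inverse_mul hu, one_mul]
  have hcG : Commute G e :=
    commute_of_mul_one_sub (inverse_isSelfAdjoint hKs) he hGe
  set b := e * f * e with hb
  have hKb : K + b = e * M * e + (1 - e) := by
    have : K = e * K * e + (1 - e) := by
      rw [mul_assoc, hc.eq, ← mul_assoc, hee, ← hc.eq]
      rw [mul_sub, mul_one, sub_eq_iff_eq_add] at hKe
      rw [add_comm]
      exact hKe
    rw [← hKf, mul_add, add_mul, hb]
    conv_lhs => rw [this]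
    abel
  have hlo : τ • (1 : Op H) ≤ K + b := hKb ▸ smul_one_le_compress hτ1 hMlo he
  have hinv : Ring.inverse (K + b) = e * J * e + (1 - e) := by
    have h1 : (e * J * e + (1 - e)) * (K + b) = 1 := by
      have a1 : e * J * e * (e * M * e) = e := by
        calc e * J * e * (e * M * e) = e * J * (e * e) * M * e := by simp only [mul_assoc]
          _ = e * (J * e) * M * e := by rw [hee]; simp only [mul_assoc]
          _ = e * e * (J * M) * e := by rw [hcJ.eq]; simp only [mul_assoc]
          _ = e := by rw [hJM, hee, mul_one, hee]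
      have a2 : e * J * e * (1 - e) = 0 := by rw [mul_sub, mul_one, mul_assoc _ e e, hee, sub_self]
      have a3 : (1 - e) * (e * M * e) = 0 := by
        rw [sub_mul, one_mul, ← mul_assoc, ← mul_assoc, hee, sub_self]
      rw [hKb, add_mul, mul_add, mul_add, a1, a2, a3, he.one_sub.isIdempotentElem.eq]
      abel
    calc Ring.inverse (K + b) = (e * J * e + (1 - e)) * ((K + b) * Ring.inverse (K + b)) := by
          rw [← mul_assoc, h1, one_mul]
      _ = _ := by rw [mul_inverse (isUnit_of_le hτ hlo), mul_one]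
  have hGd : G = e * G * e + (1 - e) := by
    rw [mul_assoc, hcG.eq, ← mul_assoc, hee, ← hcG.eq]
    rw [mul_sub, mul_one, sub_eq_iff_eq_add] at hGe
    rw [add_comm]
    exact hGe
  have hdiff : G - Ring.inverse (K + b) = e * (G - J) * e := by
    rw [hinv, mul_sub, sub_mul]
    conv_lhs => rw [hGd]
    abel
  have hscal : (τ ^ 2)⁻¹ • f ≤ G - J := by
    rw [hG, hJ, hf, ← cfc_ringInverse_id (R := ℝ) K hu hKs,
      ← cfc_sub (fun z : ℝ => z⁻¹) _ K
        (continuousOn_id.inv₀ fun z hz => (lt_of_lt_of_le ht (hsp z hz)).ne') hJc,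
      ← cfc_smul ((τ ^ 2)⁻¹) (fun z : ℝ => max (τ - z) 0) K]
    refine cfc_mono (fun z hz => ?_) (by fun_prop)
      ((continuousOn_id.inv₀ fun z hz => (lt_of_lt_of_le ht (hsp z hz)).ne').sub hJc)
    have hz0 : 0 < z := lt_of_lt_of_le ht (hsp z hz)
    rw [smul_eq_mul]
    rcases le_total z τ with hzt | hzt
    · rw [max_eq_left (sub_nonneg.2 hzt), max_eq_right hzt, inv_sub_inv hz0.ne' hτ.ne',
        inv_mul_eq_div]
      exact div_le_div_of_nonneg_left (sub_nonneg.2 hzt) (mul_pos hz0 hτ) (by nlinarith)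
    · rw [max_eq_right (sub_nonpos.2 hzt), max_eq_left hzt, mul_zero, sub_self]
  have hf0 : 0 ≤ f := cfc_nonneg fun z _ => le_max_right _ _
  have hb0 : 0 ≤ b := by simpa [hb, hes] using star_left_conjugate_nonneg hf0 e
  have hconj : (τ ^ 2)⁻¹ • b ≤ G - Ring.inverse (K + b) := by
    have := star_left_conjugate_le_conjugate hscal e
    rw [hes, mul_smul_comm, smul_mul_assoc] at this
    rwa [hdiff]
  refine ⟨b, mul_mem (mul_mem heM (S.cfc_mem_M hKM _)) heM, hb0, ?_, hlo, ?_, ?_⟩
  · calc e * (e * f * e) * e = (e * e) * f * (e * e) := by simp only [mul_assoc]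
      _ = b := by rw [hee, hb]
  · exact sub_nonneg.1 ((smul_nonneg (by positivity) hb0).trans hconj)
  · have h1 := S.tr_mono hconj
    rw [S.tr_smul, S.tr_sub] at h1
    have h2 : S.tr G - S.tr (Ring.inverse (K + b)) =
        S.tr (e * G) - S.tr (e * Ring.inverse (K + b)) := by
      rw [← S.tr_sub, ← S.tr_sub, ← mul_sub e, hdiff]
      congr 1
      rw [← mul_assoc, ← mul_assoc, hee]
    rw [div_eq_inv_mul]
    linarith

/-- Compressing an operator bounded below to a smaller projection. -/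
lemma compress {Kt e e' : Op H} {τ : ℝ} (hτ : 0 < τ) (hτ1 : τ ≤ 1) (hK : τ • (1 : Op H) ≤ Kt)
    (hKM : Kt ∈ S.M) (heM : e ∈ S.M) (he : IsStarProjection e)
    (he' : IsStarProjection e') (hee : e * e' = e') :
    τ • (1 : Op H) ≤ e' * Kt * e' + (1 - e') ∧
      e' * Ring.inverse (e' * Kt * e' + (1 - e')) ≤ Ring.inverse Kt ∧
      S.tr (e' * Ring.inverse (e' * Kt * e' + (1 - e'))) ≤ S.tr (e * Ring.inverse Kt) := by
  set K' := e' * Kt * e' + (1 - e') with hK'
  have hlo := smul_one_le_compress hτ1 hK he'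
  rw [← hK'] at hlo
  have h1 : (1 - e') * e' = 0 := by rw [sub_mul, one_mul, he'.isIdempotentElem.eq, sub_self]
  have hK'e : K' * e' = e' * Kt * e' := by
    rw [hK', add_mul, h1, mul_assoc _ e' e', he'.isIdempotentElem.eq, add_zero]
  have hK's : IsSelfAdjoint K' := isSelfAdjoint_of_le hlo
  have hu' := isUnit_of_le hτ hlo
  have hcK : Commute K' e' := commute_of_mul_one_sub hK's he' (by
    rw [mul_sub, mul_one, hK'e, hK', add_sub_cancel_left])
  set G' := Ring.inverse K' with hG'
  have hG's : IsSelfAdjoint G' := inverse_isSelfAdjoint hK's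
  have hcG : Commute G' e' := by
    have h2 : G' * (K' * e') * G' = G' * (e' * K') * G' := by rw [hcK.eq]
    rw [← mul_assoc G', hG', inverse_mul hu', one_mul, mul_assoc, mul_assoc e' K',
      mul_inverse hu', mul_one] at h2
    exact h2.symm
  set Y := e' * G' with hY
  have hYe : e' * Y = Y := by rw [hY, ← mul_assoc, he'.isIdempotentElem.eq]
  have hYe' : Y * e' = Y := by
    rw [hY, mul_assoc, hcG.eq, ← mul_assoc, he'.isIdempotentElem.eq]
  have hYs : IsSelfAdjoint Y := by
    rw [IsSelfAdjoint, hY, star_mul, hG's.star_eq, he'.isSelfAdjoint.star_eq, hcG.eq]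
  have hYK : Y * (e' * Kt * e') * Y = Y := by
    rw [← hK'e]
    calc Y * (K' * e') * Y = e' * (G' * K') * (e' * Y) := by rw [hY]; simp only [mul_assoc]
      _ = Y := by rw [inverse_mul hu', mul_one, hYe, hYe]
  have hKt0 : (0 : Op H) ≤ Kt := le_trans (smul_nonneg hτ.le zero_le_one) hK
  have hle : Y ≤ Ring.inverse Kt :=
    inverse_compress_le (isUnit_of_le hτ hK) hKt0 hYK hYe hYe' hYs
  refine ⟨hlo, hle, ?_⟩
  have h3 : e * Y = Y := by rw [hY, ← mul_assoc, hee]
  have h4 : Y * e = Y := by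
    have := congrArg star h3
    rwa [star_mul, hYs.star_eq, he.isSelfAdjoint.star_eq] at this
  have h5 := star_left_conjugate_le_conjugate hle e
  rw [he.isSelfAdjoint.star_eq, h3, h4] at h5
  refine (S.tr_mono h5).trans (le_of_eq ?_)
  rw [S.tr_comm (mul_mem heM (S.inverse_mem_M hKM)) heM, ← mul_assoc, he.isIdempotentElem.eq]

end Vale.Agent.P078.Tr.Iter
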