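import Vale.Agent.P078.Tr.Iter.Cleanup.Restrict
import Vale.Agent.P078.Tr.Iter.Cleanup.Single

/-!
# Cleanup: supports and operators of the new state
-/

open scoped ComplexOrder InnerProductSpace

noncomputable section

namespace Vale.Agent.P078.Tr.Iter.Clean

universe u

variable {H : Type u} [NormedAddCommGroup H] [InnerProductSpace ℂ H] [CompleteSpace H]
  {S : Tracial H}

open Tracial

namespace Ctx

variable {P : Par} {y : Op H} {z : St S P.r} {b : Fin P.r → Bool → Op H} (h0 : Ctx P y z b)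
include h0

lemma hnl : ∀ c, (tidy z y b).live c ∈ S.A := by
  exact fun c => fnA_mem _

lemma hnf : ∀ c, (tidy z y b).fro c ∈ S.A := by
  have hc := h0.hc
  exact fun c => add_mem (hc.fro_mem c) (fnA_mem _)

lemma hns : ∀ c, (tidy z y b).sup c ∈ S.A := by
  have hnl := h0.hnl
  have hnf := h0.hnf
  exact fun c => add_mem (hnl c) (hnf c)

lemma evnf : ∀ c (χ : S.Chi), S.ev χ ((tidy z y b).fro c) = S.ev χ (z.fro c) + freeze z (widen z b) y c χ := by
  have hc := h0.hc
  exact 
    fun c χ => by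
      show S.ev χ (z.fro c + fnA S (freeze z (widen z b) y c)) = _
      rw [ev_add (hc.fro_mem c) (fnA_mem _), ev_fnA]

lemma hFoFr : ∀ c i (χ : S.Chi), freeze z (widen z b) y i χ = 1 → S.ev χ (z.fro c) = 0 := by
  have hAO := h0.hAO
  have keep1 := h0.keep1
  have freeze1 := h0.freeze1
  exact fun c i χ h =>
    hAO c χ (keep1 χ (freeze1 i χ h).1).1

lemma binf : ∀ c (χ : S.Chi), S.ev χ ((tidy z y b).fro c) = 0 ∨ S.ev χ ((tidy z y b).fro c) = 1 := by
  have bO := h0.bO
  have bfr := h0.bfr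
  have evnf := h0.evnf
  have hFoFr := h0.hFoFr
  exact fun c χ => by
    rw [evnf]
    rcases bfr c χ with h | h
    · rw [h, add_zero]
      exact bO c χ
    · rw [hFoFr c c χ h, h, zero_add]
      exact Or.inr rfl

lemma hfrp : ∀ c, IsStarProjection ((tidy z y b).fro c) := by
  have hc := h0.hc
  have hnf := h0.hnf
  have binf := h0.binf
  exact fun c => by
    refine ⟨?_, ((hc.fro_proj c).isSelfAdjoint.add (fnA_isSelfAdjoint _))⟩
    have hs : IsSelfAdjoint ((tidy z y b).fro c) := (hc.fro_proj c).isSelfAdjoint.add (fnA_isSelfAdjoint _)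
    refine (ext_iff_ev (mul_mem (hnf c) (hnf c)) (hnf c) (mul_isSelfAdjoint (hnf c) (hnf c) hs hs)
      hs).2 fun χ => ?_
    rw [ev_mul (hnf c) (hnf c) hs]
    rcases binf c χ with h | h <;> simp [h]

lemma hnlf : ∀ c i (χ : S.Chi), newLive z (widen z b) y c χ = 1 →
      S.ev χ (z.fro i) = 0 ∧ freeze z (widen z b) y i χ = 0 := by
  have bfr := h0.bfr
  have hAO := h0.hAO
  have keep1 := h0.keep1
  have act1 := h0.act1
  have freeze1 := h0.freeze1
  have live1 := h0.live1
  exact fun c i χ h => by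
    obtain ⟨h2, -, -⟩ := live1 c χ h
    exact ⟨hAO i χ (keep1 χ (act1 χ h2).1).1, (bfr i χ).resolve_right fun e =>
      zero_ne_one ((act1 χ h2).2 i ▸ (freeze1 i χ e).2.1)⟩

lemma hlf : ∀ c, (tidy z y b).live c * (tidy z y b).fro c = 0 := by
  have bnl := h0.bnl
  have hnl := h0.hnl
  have hnf := h0.hnf
  have evnf := h0.evnf
  have hfrp := h0.hfrp
  have hnlf := h0.hnlf
  exact fun c => by
    refine (ext_iff_ev (mul_mem (hnl c) (hnf c)) (zero_mem _) (mul_isSelfAdjoint (hnl c) (hnf c)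
      (fnA_isSelfAdjoint _) (hfrp c).isSelfAdjoint) (IsSelfAdjoint.zero _)).2 fun χ => ?_
    rw [ev_mul (hnl c) (hnf c) (fnA_isSelfAdjoint _), ev_zero, evnf]
    show S.ev χ (fnA S (newLive z (widen z b) y c)) * _ = 0
    rw [ev_fnA]
    rcases bnl c χ with h | h
    · rw [h, zero_mul]
    · rw [(hnlf c c χ h).1, (hnlf c c χ h).2, add_zero, mul_zero]

lemma hlp : ∀ c, IsStarProjection ((tidy z y b).live c) := by
  have bnl := h0.bnl
  exact fun c => isStarProjection_fnA (bnl c)

lemma hsp : ∀ c, IsStarProjection ((tidy z y b).sup c) := by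
  have hfrp := h0.hfrp
  have hlf := h0.hlf
  have hlp := h0.hlp
  exact fun c => (hlp c).add (hfrp c) (hlf c)

lemma evns : ∀ c (χ : S.Chi), S.ev χ ((tidy z y b).sup c) =
      newLive z (widen z b) y c χ + (S.ev χ (z.fro c) + freeze z (widen z b) y c χ) := by
  have hnl := h0.hnl
  have hnf := h0.hnf
  have evnf := h0.evnf
  exact fun c χ => by
    rw [St.sup, ev_add (hnl c) (hnf c), evnf]
    show S.ev χ (fnA S (newLive z (widen z b) y c)) + _ = _
    rw [ev_fnA]

lemma hsle : ∀ c (χ : S.Chi), S.ev χ ((tidy z y b).sup c) ≤ S.ev χ (z.sup c) := by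
  have hc := h0.hc
  have hc0 := h0.hc0
  have bfr := h0.bfr
  have bnl := h0.bnl
  have freeze1 := h0.freeze1
  have ready1 := h0.ready1
  have live1 := h0.live1
  have hnlf := h0.hnlf
  have evns := h0.evns
  exact fun c χ => by
    rw [evns, St.sup, ev_add (hc.live_mem c) (hc.fro_mem c)]
    rcases bnl c χ with h | h <;> rcases bfr c χ with h' | h'
    · rw [h, h']
      linarith [ev_nonneg (χ := χ) (hc.live_mem c) (hc.live_proj c).nonneg]
    · rw [h, h', (ready1 c χ (freeze1 c χ h').2.1).1]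
      linarith
    · rw [h, h', (live1 c χ h).2.1]
      linarith
    · exact absurd ((hnlf c c χ h).2.symm.trans h') zero_ne_one

lemma hss : ∀ c, z.sup c * (tidy z y b).sup c = (tidy z y b).sup c := by
  have hw := h0.hw
  have hc0 := h0.hc0
  have hns := h0.hns
  have hsp := h0.hsp
  have hsle := h0.hsle
  exact fun c => by
    refine (ext_iff_ev (mul_mem (hw.sup_mem c) (hns c)) (hns c) (mul_isSelfAdjoint (hw.sup_mem c)
      (hns c) (hw.sup_proj c).isSelfAdjoint (hsp c).isSelfAdjoint) (hsp c).isSelfAdjoint).2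
      fun χ => ?_
    rw [ev_mul (hw.sup_mem c) (hns c) (hw.sup_proj c).isSelfAdjoint]
    rcases ev_proj (χ := χ) (hns c) (hsp c) with h | h
    · rw [h, mul_zero]
    · have h1 := hsle c χ
      rw [h] at h1 ⊢
      rcases ev_proj (χ := χ) (hw.sup_mem c) (hw.sup_proj c) with h2 | h2
      · linarith
      · rw [h2, one_mul]

lemma hss' : ∀ c, (tidy z y b).sup c * z.sup c = (tidy z y b).sup c := by
  have hw := h0.hw
  have hns := h0.hns
  have hss := h0.hss
  exact fun c => by
    rw [S.comm _ (hns c) _ (hw.sup_mem c), hss]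

lemma hw' : Wf (tidy z y b) := by
  have hc := h0.hc
  have hw := h0.hw
  have hwt := h0.hwt
  have hnl := h0.hnl
  have hnf := h0.hnf
  have hns := h0.hns
  have hfrp := h0.hfrp
  have hlf := h0.hlf
  have hlp := h0.hlp
  have hsp := h0.hsp
  exact
    { live_mem := hnl, live_proj := hlp, fro_mem := hnf, fro_proj := hfrp, live_fro := hlf
      a_mem := hw.a_mem, a_sa := hw.a_sa, a_ge := hw.a_ge
      B_mem := fun c σ => mul_mem (mul_mem (S.le _ (hns c)) (hwt.B_mem c σ)) (S.le _ (hns c))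
      B_nonneg := fun c σ => by
        have := star_left_conjugate_nonneg (hwt.B_nonneg c σ) ((tidy z y b).sup c)
        rwa [(hsp c).isSelfAdjoint.star_eq] at this
      B_sup := fun c σ => by
        show (tidy z y b).sup c * ((tidy z y b).sup c * (widen z b).B c σ * (tidy z y b).sup c) * (tidy z y b).sup c = _
        rw [← mul_assoc, ← mul_assoc, (hsp c).isIdempotentElem.eq, mul_assoc _ ((tidy z y b).sup c),
          (hsp c).isIdempotentElem.eq]
        rfl
      loss_mem := add_mem hc.loss_mem (S.rsmul_mem_A _ (fnA_mem _))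
      loss_sa := hc.loss_sa.add ((IsSelfAdjoint.all _).smul (fnA_isSelfAdjoint _)) }

lemma hK' : ∀ c σ, (tidy z y b).K y c σ = (tidy z y b).sup c * (widen z b).K y c σ * (tidy z y b).sup c + (1 - (tidy z y b).sup c) := by
  have hc := h0.hc
  have hns := h0.hns
  have hsp := h0.hsp
  have hss := h0.hss
  have hss' := h0.hss'
  intro c σ
  show z.a c * (tidy z y b).sup c - sg σ • ((tidy z y b).sup c * y * (tidy z y b).sup c) + (tidy z y b).sup c * (widen z b).B c σ * (tidy z y b).sup c +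
      (1 - (tidy z y b).sup c) = (tidy z y b).sup c * (z.a c * z.sup c - sg σ • (z.sup c * y * z.sup c) + (widen z b).B c σ +
        (1 - z.sup c)) * (tidy z y b).sup c + (1 - (tidy z y b).sup c)
  have e1 : (tidy z y b).sup c * (z.a c * z.sup c) * (tidy z y b).sup c = z.a c * (tidy z y b).sup c := by
    rw [mul_assoc, mul_assoc, hss, ← mul_assoc, S.comm _ (hns c) _ (hc.a_mem c), mul_assoc,
      (hsp c).isIdempotentElem.eq]
  have e2 : (tidy z y b).sup c * (z.sup c * y * z.sup c) * (tidy z y b).sup c = (tidy z y b).sup c * y * (tidy z y b).sup c := by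
    rw [← mul_assoc, ← mul_assoc, hss', mul_assoc _ (z.sup c), hss]
  have e3 : (tidy z y b).sup c * (1 - z.sup c) * (tidy z y b).sup c = 0 := by
    rw [mul_sub, mul_one, hss', sub_self, zero_mul]
  rw [mul_add, add_mul, mul_add, add_mul, mul_sub, sub_mul, mul_smul_comm, smul_mul_assoc, e1,
    e2, e3, add_zero]

lemma hcomp : ∀ c σ, P.tau • (1 : Op H) ≤ (tidy z y b).sup c * (widen z b).K y c σ * (tidy z y b).sup c + (1 - (tidy z y b).sup c) ∧
    (tidy z y b).sup c * Ring.inverse ((tidy z y b).sup c * (widen z b).K y c σ * (tidy z y b).sup c + (1 - (tidy z y b).sup c)) ≤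
      Ring.inverse ((widen z b).K y c σ) ∧
    S.tr ((tidy z y b).sup c * Ring.inverse ((tidy z y b).sup c * (widen z b).K y c σ * (tidy z y b).sup c + (1 - (tidy z y b).sup c))) ≤
      S.tr (z.sup c * Ring.inverse ((widen z b).K y c σ)) := by
  have hy := h0.hy
  have hw := h0.hw
  have hτ := h0.hτ
  have hτ1 := h0.hτ1
  have hwt := h0.hwt
  have hKtlo := h0.hKtlo
  have hsp := h0.hsp
  have hss := h0.hss
  exact fun c σ => compress hτ hτ1 (hKtlo c σ) (hwt.K_mem hy c σ)
    (S.le _ (hw.sup_mem c)) (hw.sup_proj c) (hsp c) (hss c)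

lemma hK'lo : ∀ c σ, P.tau • (1 : Op H) ≤ (tidy z y b).K y c σ := by
  have hK' := h0.hK'
  have hcomp := h0.hcomp
  exact fun c σ => hK' c σ ▸ (hcomp c σ).1

lemma hg' : ∀ c σ (χ : S.Chi), S.ev χ ((tidy z y b).sup c) = 1 →
      S.ev χ (S.E ((tidy z y b).G y c σ)) ≤ S.ev χ (S.E ((widen z b).G y c σ)) := by
  have hB := h0.hB
  have hy := h0.hy
  have hτ := h0.hτ
  have hwt := h0.hwt
  have hns := h0.hns
  have hsp := h0.hsp
  have hw' := h0.hw'
  have hK' := h0.hK'
  have hcomp := h0.hcomp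
  have hK'lo := h0.hK'lo
  exact fun c σ χ h => by
    have h1 : (tidy z y b).sup c * (tidy z y b).G y c σ ≤ (widen z b).G y c σ := by
      show (tidy z y b).sup c * Ring.inverse ((tidy z y b).K y c σ) ≤ Ring.inverse ((widen z b).K y c σ)
      rw [hK']
      exact (hcomp c σ).2.1
    have hGM := hw'.G_mem hB hy (c := c) (σ := σ)
    have h2 := E_mono hB (mul_mem (S.le _ (hns c)) hGM) (hwt.G_mem hB hy) h1
    rw [(hB.E_mul _ (hns c) _ hGM).1] at h2
    have hgs := hw'.g_sa hB hy hτ (hK'lo c σ)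
    have h3 := ev_le (χ := χ) (mul_mem (hns c) (hw'.g_mem hB hy)) (hwt.g_mem hB hy)
      (mul_isSelfAdjoint (hns c) (hw'.g_mem hB hy) (hsp c).isSelfAdjoint hgs) h2
    rwa [ev_mul (hns c) (hw'.g_mem hB hy) (hsp c).isSelfAdjoint, h, one_mul] at h3

lemma hfz' : ∀ c (χ : S.Chi), newLive z (widen z b) y c χ = 1 →
      S.ev χ ((widen z b).side y c).fz ≤ S.ev χ ((tidy z y b).side y c).fz := by
  have hB := h0.hB
  have hy := h0.hy
  have hτ := h0.hτ
  have hwt := h0.hwt
  have hKtlo := h0.hKtlo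
  have hnlf := h0.hnlf
  have evns := h0.evns
  have hw' := h0.hw'
  have hK'lo := h0.hK'lo
  have hg' := h0.hg'
  exact fun c χ h =>
    fz_mono hwt hw' hB hy hτ (hKtlo c) (hK'lo c) rfl χ fun σ => hg' c σ χ (by
      rw [evns, h, (hnlf c c χ h).1, (hnlf c c χ h).2, add_zero, add_zero])

lemma hlive_sup : ∀ c (χ : S.Chi), S.ev χ (z.live c) = 1 → S.ev χ (z.sup c) = 1 := by
  have hc := h0.hc
  have hLA := h0.hLA
  have hAO := h0.hAO
  exact fun c χ h => by
    rw [St.sup, ev_add (hc.live_mem c) (hc.fro_mem c), h, hAO c χ (hLA c χ h), add_zero]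

end Ctx

end Vale.Agent.P078.Tr.Iter.Clean
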